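import Vale.Agent.P356.Vec

/-! The spectral calculus of a reduced density matrix and the Poincare estimate for functions
of it, for an abstract bipartite system with index types `a` and `b`. -/

namespace Vale.P356

open Matrix Finset

variable {a b : Type*} [Fintype a] [Fintype b] [DecidableEq a] [DecidableEq b]

/-- Reduced density matrix of a vector on `a × b`. -/
noncomputable def rho (ψ : a × b → ℂ) : Matrix a a ℂ :=
  fun i j => ∑ c, ψ (i, c) * starRingEnd ℂ (ψ (j, c))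

omit [Fintype a] [DecidableEq a] [DecidableEq b] in
lemma rho_isHermitian (ψ : a × b → ℂ) : (rho ψ).IsHermitian := by
  ext i j
  simp [rho, conjTranspose_apply, mul_comm]

/-- Schmidt eigenvalues. -/
noncomputable def lam (ψ : a × b → ℂ) : a → ℝ := (rho_isHermitian ψ).eigenvalues

/-- Unitary matrix diagonalising the reduced density matrix. -/
noncomputable def eigU (ψ : a × b → ℂ) : Matrix a a ℂ :=
  ((rho_isHermitian ψ).eigenvectorUnitary : Matrix a a ℂ)

omit [DecidableEq b] in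
lemma eigU_star_mul (ψ : a × b → ℂ) : (eigU ψ)ᴴ * eigU ψ = 1 :=
  Unitary.coe_star_mul_self (rho_isHermitian ψ).eigenvectorUnitary

omit [DecidableEq b] in
lemma eigU_mul_star (ψ : a × b → ℂ) : eigU ψ * (eigU ψ)ᴴ = 1 :=
  Unitary.coe_mul_star_self (rho_isHermitian ψ).eigenvectorUnitary

/-- The rows of `φ` written in the eigenbasis of the reduced density matrix of `ψ`. -/
noncomputable def rot (ψ φ : a × b → ℂ) (i : a) : b → ℂ :=
  fun c => ∑ k, starRingEnd ℂ (eigU ψ k i) * φ (k, c)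

omit [DecidableEq b] in
lemma rot_orth (ψ : a × b → ℂ) (i j : a) :
    pair (rot ψ ψ i) (rot ψ ψ j) = if i = j then (lam ψ i : ℂ) else 0 := by
  have h : (eigU ψ)ᴴ * rho ψ * eigU ψ = diagonal (fun k => (lam ψ k : ℂ)) := by
    have h := (rho_isHermitian ψ).spectral_theorem
    rw [Unitary.conjStarAlgAut_apply] at h
    conv_lhs => enter [1, 2]; rw [h]
    change (eigU ψ)ᴴ * (eigU ψ * diagonal (fun k => (lam ψ k : ℂ)) * (eigU ψ)ᴴ) * eigU ψ = _
    calc _ = ((eigU ψ)ᴴ * eigU ψ) * diagonal (fun k => (lam ψ k : ℂ))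
          * ((eigU ψ)ᴴ * eigU ψ) := by simp only [Matrix.mul_assoc]
      _ = _ := by rw [eigU_star_mul, Matrix.one_mul, Matrix.mul_one]
  have hji := congrFun (congrFun h j) i
  rw [diagonal_apply] at hji
  have : pair (rot ψ ψ i) (rot ψ ψ j) = ((eigU ψ)ᴴ * rho ψ * eigU ψ) j i := by
    simp only [pair, rot, map_sum, map_mul, Complex.conj_conj, Finset.sum_mul, Finset.mul_sum,
      Matrix.mul_apply, conjTranspose_apply, rho, RCLike.star_def]
    rw [Finset.sum_comm]
    conv_lhs => enter [2, l]; rw [Finset.sum_comm]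
    rw [Finset.sum_comm]
    refine Finset.sum_congr rfl fun k _ => Finset.sum_congr rfl fun l _ =>
      Finset.sum_congr rfl fun c _ => ?_
    ring
  rw [this, hji]
  by_cases hij : i = j
  · subst hij; simp
  · rw [if_neg hij, if_neg (Ne.symm hij)]

lemma lam_eq_sqn (ψ : a × b → ℂ) (i : a) : lam ψ i = sqn (rot ψ ψ i) := by
  have h := rot_orth ψ i i
  rw [if_pos rfl, pair_self] at h
  exact_mod_cast h.symm

lemma lam_nonneg (ψ : a × b → ℂ) (i : a) : 0 ≤ lam ψ i := by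
  rw [lam_eq_sqn]; exact sqn_nonneg _

omit [DecidableEq b] in
lemma rot_reconstruct (ψ φ : a × b → ℂ) (k : a) (c : b) :
    φ (k, c) = ∑ i, eigU ψ k i * rot ψ φ i c := by
  simp only [rot, Finset.mul_sum]
  rw [Finset.sum_comm]
  have h : ∀ l, ∑ i, eigU ψ k i * (starRingEnd ℂ (eigU ψ l i) * φ (l, c))
      = (1 : Matrix a a ℂ) k l * φ (l, c) := by
    intro l
    rw [← eigU_mul_star ψ, Matrix.mul_apply, Finset.sum_mul]
    simp [mul_assoc]
  simp [h, Matrix.one_apply]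

/-- The vector `f(ρ) ψ`, where `f` takes the value `g i` on the eigenvalue of index `i`. -/
noncomputable def fvec (ψ : a × b → ℂ) (g : a → ℝ) : a × b → ℂ :=
  fun p => ∑ i, eigU ψ p.1 i * ((g i : ℂ) * rot ψ ψ i p.2)

lemma fvec_one (ψ : a × b → ℂ) : fvec ψ (fun _ => 1) = ψ := by
  funext p
  obtain ⟨k, c⟩ := p
  simpa [fvec] using (rot_reconstruct ψ ψ k c).symm

/-- `x ⊗ y` as a matrix on `a × b`. -/
def tens (x : Matrix a a ℂ) (y : Matrix b b ℂ) : Matrix (a × b) (a × b) ℂ :=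
  fun p p' => x p.1 p'.1 * y p.2 p'.2

/-- `x` in the eigenbasis of the reduced density matrix. -/
noncomputable def xrot (ψ : a × b → ℂ) (x : Matrix a a ℂ) : Matrix a a ℂ :=
  (eigU ψ)ᴴ * x * eigU ψ

/-- The matrix elements of an operator on `b` between Schmidt vectors. -/
noncomputable def wmat (ψ : a × b → ℂ) (y : Matrix b b ℂ) (i j : a) : ℂ :=
  pair (rot ψ ψ i) (y *ᵥ rot ψ ψ j)

omit [DecidableEq b] in
lemma pair_fvec_tens (ψ : a × b → ℂ) (g h : a → ℝ) (x : Matrix a a ℂ) (y : Matrix b b ℂ) :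
    pair (fvec ψ g) (tens x y *ᵥ fvec ψ h)
      = ∑ i, ∑ j, (g i : ℂ) * (h j : ℂ) * xrot ψ x i j * wmat ψ y i j := by
  have e : ∀ k c, (tens x y *ᵥ fvec ψ h) (k, c)
      = ∑ j, ((x * eigU ψ) k j) * ((h j : ℂ) * (y *ᵥ rot ψ ψ j) c) := by
    intro k c
    simp only [Matrix.mulVec, dotProduct, tens, fvec, Fintype.sum_prod_type, Finset.mul_sum,
      Matrix.mul_apply, Finset.sum_mul]
    conv_lhs => enter [2, k']; rw [Finset.sum_comm]
    rw [Finset.sum_comm]
    refine Finset.sum_congr rfl fun j _ => ?_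
    rw [Finset.sum_comm]
    exact Finset.sum_congr rfl fun k' _ => Finset.sum_congr rfl fun c' _ => by ring
  calc pair (fvec ψ g) (tens x y *ᵥ fvec ψ h)
      = ∑ k, ∑ c, ∑ i, ∑ j, (starRingEnd ℂ (eigU ψ k i) * (x * eigU ψ) k j)
          * (((g i : ℂ) * (h j : ℂ)) *
            (starRingEnd ℂ (rot ψ ψ i c) * (y *ᵥ rot ψ ψ j) c)) := by
        rw [pair, Fintype.sum_prod_type]
        refine Finset.sum_congr rfl fun k _ => Finset.sum_congr rfl fun c _ => ?_
        rw [e]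
        simp only [fvec, map_sum, map_mul, Complex.conj_ofReal, Finset.sum_mul, Finset.mul_sum]
        rw [Finset.sum_comm]
        exact Finset.sum_congr rfl fun i _ => Finset.sum_congr rfl fun j _ => by ring
    _ = ∑ i, ∑ j, ∑ k, ∑ c, (starRingEnd ℂ (eigU ψ k i) * (x * eigU ψ) k j)
          * (((g i : ℂ) * (h j : ℂ)) *
            (starRingEnd ℂ (rot ψ ψ i c) * (y *ᵥ rot ψ ψ j) c)) := by
        conv_lhs => enter [2, k]; rw [Finset.sum_comm]
        rw [Finset.sum_comm]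
        refine Finset.sum_congr rfl fun i _ => ?_
        conv_lhs => enter [2, k]; rw [Finset.sum_comm]
        rw [Finset.sum_comm]
    _ = _ := by
        refine Finset.sum_congr rfl fun i _ => Finset.sum_congr rfl fun j _ => ?_
        simp only [← Finset.mul_sum, ← Finset.sum_mul]
        rw [xrot, Matrix.mul_assoc, Matrix.mul_apply (M := (eigU ψ)ᴴ)]
        simp only [conjTranspose_apply, RCLike.star_def, wmat, pair]
        ring

omit [Fintype a] [Fintype b] in
lemma tens_one : tens (1 : Matrix a a ℂ) (1 : Matrix b b ℂ) = 1 := by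
  funext p p'
  by_cases h1 : p.1 = p'.1 <;> by_cases h2 : p.2 = p'.2 <;>
    simp [tens, Matrix.one_apply, Prod.ext_iff, h1, h2]

omit [DecidableEq b] in
lemma xrot_one (ψ : a × b → ℂ) : xrot ψ 1 = 1 := by
  rw [xrot, Matrix.mul_one, eigU_star_mul]

lemma wmat_smul_one (ψ : a × b → ℂ) (t : ℂ) (i j : a) :
    wmat ψ (t • 1) i j = if i = j then t * (lam ψ i : ℂ) else 0 := by
  rw [wmat, Matrix.smul_mulVec, Matrix.one_mulVec, pair_smul_right, rot_orth]
  by_cases h : i = j <;> simp [h]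

lemma pair_fvec (ψ : a × b → ℂ) (g h : a → ℝ) :
    pair (fvec ψ g) (fvec ψ h) = ((∑ i, lam ψ i * (g i * h i) : ℝ) : ℂ) := by
  have := pair_fvec_tens ψ g h 1 1
  rw [tens_one, Matrix.one_mulVec] at this
  rw [this, xrot_one]
  push_cast
  refine Finset.sum_congr rfl fun i _ => ?_
  rw [Finset.sum_eq_single i]
  · simp [wmat, rot_orth]; ring
  · intro j _ hji; simp [Ne.symm hji]
  · simp

lemma sqn_fvec (ψ : a × b → ℂ) (g : a → ℝ) : sqn (fvec ψ g) = ∑ i, lam ψ i * (g i * g i) := by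
  have := pair_fvec ψ g g
  rw [pair_self] at this
  exact_mod_cast this

lemma sum_lam (ψ : a × b → ℂ) : ∑ i, lam ψ i = sqn ψ := by
  have := sqn_fvec ψ (fun _ => 1)
  simpa [fvec_one] using this.symm

/-- The symmetrised second commutator form of an operator against `f(ρ)`. -/
noncomputable def dform (ψ : a × b → ℂ) (g : a → ℝ) (K : Matrix (a × b) (a × b) ℂ) : ℂ :=
  pair (fvec ψ g) (K *ᵥ fvec ψ g)
    - (pair (fvec ψ fun i => g i * g i) (K *ᵥ ψ)
      + pair ψ (K *ᵥ fvec ψ fun i => g i * g i)) / 2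

omit [DecidableEq b] in
lemma dform_sum {τ : Type*} (s : Finset τ) (ψ : a × b → ℂ) (g : a → ℝ)
    (K : τ → Matrix (a × b) (a × b) ℂ) :
    dform ψ g (∑ t ∈ s, K t) = ∑ t ∈ s, dform ψ g (K t) := by
  have hp : ∀ u v, pair u ((∑ t ∈ s, K t) *ᵥ v) = ∑ t ∈ s, pair u (K t *ᵥ v) := by
    intro u v
    rw [Matrix.sum_mulVec]
    simp only [pair, Finset.sum_apply, Finset.mul_sum]
    exact Finset.sum_comm
  simp [dform, hp, Finset.sum_sub_distrib, ← Finset.sum_add_distrib, Finset.sum_div]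

lemma dform_tens (ψ : a × b → ℂ) (g : a → ℝ) (x : Matrix a a ℂ) (y : Matrix b b ℂ) :
    dform ψ g (tens x y)
      = -(∑ i, ∑ j, (((g i - g j) ^ 2 : ℝ) : ℂ) * xrot ψ x i j * wmat ψ y i j) / 2 := by
  have e : ∀ u v, pair (fvec ψ u) (tens x y *ᵥ fvec ψ v)
      = ∑ i, ∑ j, (u i : ℂ) * (v j : ℂ) * xrot ψ x i j * wmat ψ y i j :=
    fun u v => pair_fvec_tens ψ u v x y
  have e1 : pair (fvec ψ fun i => g i * g i) (tens x y *ᵥ ψ)
      = ∑ i, ∑ j, ((g i * g i : ℝ) : ℂ) * xrot ψ x i j * wmat ψ y i j := by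
    have := e (fun i => g i * g i) (fun _ => 1)
    simpa [fvec_one] using this
  have e2 : pair ψ (tens x y *ᵥ fvec ψ fun i => g i * g i)
      = ∑ i, ∑ j, ((g j * g j : ℝ) : ℂ) * xrot ψ x i j * wmat ψ y i j := by
    have := e (fun _ => 1) (fun i => g i * g i)
    simpa [fvec_one] using this
  rw [dform, e, e1, e2, ← Finset.sum_neg_distrib, ← Finset.sum_add_distrib, Finset.sum_div,
    ← Finset.sum_sub_distrib, Finset.sum_div]
  refine Finset.sum_congr rfl fun i _ => ?_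
  rw [← Finset.sum_neg_distrib, ← Finset.sum_add_distrib, Finset.sum_div,
    ← Finset.sum_sub_distrib, Finset.sum_div]
  refine Finset.sum_congr rfl fun j _ => ?_
  push_cast
  ring

lemma dform_tens_one_left (ψ : a × b → ℂ) (g : a → ℝ) (y : Matrix b b ℂ) :
    dform ψ g (tens 1 y) = 0 := by
  rw [dform_tens]
  simp only [xrot_one]
  rw [Finset.sum_eq_zero, neg_zero, zero_div]
  intro i _
  refine Finset.sum_eq_zero fun j _ => ?_
  by_cases h : i = j <;> simp [h]

lemma dform_tens_scalar_right (ψ : a × b → ℂ) (g : a → ℝ) (x : Matrix a a ℂ) (t : ℂ) :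
    dform ψ g (tens x (t • 1)) = 0 := by
  rw [dform_tens, Finset.sum_eq_zero, neg_zero, zero_div]
  intro i _
  refine Finset.sum_eq_zero fun j _ => ?_
  by_cases h : i = j <;> simp [h, wmat_smul_one]

/-- Functions which are 1-Lipschitz in the logarithm of the Schmidt eigenvalue. -/
def LogLip (ψ : a × b → ℂ) (g : a → ℝ) : Prop :=
  ∀ i j, 0 < lam ψ i → 0 < lam ψ j → |g i - g j| ≤ |Real.log (lam ψ i) - Real.log (lam ψ j)|

lemma sq_mul_sqrt_le (u p r : ℝ) (hp : 0 < p) (hr : 0 < r)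
    (hu : |u| ≤ |Real.log p - Real.log r|) : u ^ 2 * Real.sqrt (p * r) ≤ 16 * (p + r) := by
  wlog h : r ≤ p generalizing p r
  · rw [mul_comm p r, add_comm p r]
    exact this r p hr hp (by rwa [abs_sub_comm]) (le_of_not_ge h)
  set s := Real.log p - Real.log r with hs
  have hs0 : 0 ≤ s := sub_nonneg.2 (Real.log_le_log hr h)
  have hu2 : u ^ 2 ≤ s ^ 2 := by nlinarith [abs_nonneg u, sq_abs u, abs_of_nonneg hs0]
  have hexp : s ^ 2 ≤ 16 * Real.exp (s / 2) := by
    have h1 : s / 4 ≤ Real.exp (s / 4) := by linarith [Real.add_one_le_exp (s / 4)]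
    have h2 : Real.exp (s / 2) = Real.exp (s / 4) * Real.exp (s / 4) := by
      rw [← Real.exp_add]; ring_nf
    nlinarith [mul_le_mul h1 h1 (by linarith) (Real.exp_pos _).le]
  have hpr : Real.exp (s / 2) * Real.sqrt (p * r) = p := by
    have h2 : Real.exp (s / 2) = Real.sqrt (p / r) := by
      rw [Real.exp_half, hs, Real.exp_sub, Real.exp_log hp, Real.exp_log hr]
    rw [h2, ← Real.sqrt_mul (div_nonneg hp.le hr.le)]
    have h3 : p / r * (p * r) = p * p := by field_simp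
    rw [h3, Real.sqrt_mul_self hp.le]
  calc u ^ 2 * Real.sqrt (p * r) ≤ (16 * Real.exp (s / 2)) * Real.sqrt (p * r) :=
        mul_le_mul_of_nonneg_right (hu2.trans hexp) (Real.sqrt_nonneg _)
    _ = 16 * p := by rw [mul_assoc, hpr]
    _ ≤ _ := by linarith

lemma term_le (ψ : a × b → ℂ) {g : a → ℝ} (hg : LogLip ψ g) (xe we : ℂ) (i j : a) {J : ℝ}
    (hJ : 0 < J) (hzi : lam ψ i = 0 → we = 0) (hzj : lam ψ j = 0 → we = 0) :
    (g i - g j) ^ 2 * ‖xe‖ * ‖we‖
      ≤ 8 * (lam ψ i * (J * ‖xe‖ ^ 2) + lam ψ j * (J * ‖xe‖ ^ 2)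
          + (‖we‖ ^ 2 / lam ψ j) / J + (‖we‖ ^ 2 / lam ψ i) / J) := by
  rcases (lam_nonneg ψ i).eq_or_lt with hi | hi
  · rw [hzi hi.symm]; simp
    have := lam_nonneg ψ i
    have := lam_nonneg ψ j
    positivity
  rcases (lam_nonneg ψ j).eq_or_lt with hj | hj
  · rw [hzj hj.symm]; simp
    have := lam_nonneg ψ i
    have := lam_nonneg ψ j
    positivity
  set p := lam ψ i with hp
  set r := lam ψ j with hr
  have hk := sq_mul_sqrt_le (g i - g j) p r hi hj (hg i j hi hj)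
  set s := Real.sqrt (p * r) with hsd
  have hs : 0 < s := Real.sqrt_pos.2 (mul_pos hi hj)
  set y := ‖we‖ / s with hy
  have hwy : ‖we‖ = s * y := by rw [hy]; field_simp
  have hyy : ‖we‖ ^ 2 = p * r * y ^ 2 := by
    rw [hwy, mul_pow, hsd, Real.sq_sqrt (mul_nonneg hi.le hj.le)]
  have hy0 : 0 ≤ y := div_nonneg (norm_nonneg _) hs.le
  have am : ‖xe‖ * y ≤ (J * ‖xe‖ ^ 2 + y ^ 2 / J) / 2 := by
    have h0 : 0 ≤ (J * ‖xe‖ - y) ^ 2 / J := div_nonneg (sq_nonneg _) hJ.le
    have he : (J * ‖xe‖ - y) ^ 2 / J = J * ‖xe‖ ^ 2 + y ^ 2 / J - 2 * (‖xe‖ * y) := by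
      field_simp; ring
    linarith
  have ei : p * r * y ^ 2 / r / J = p * (y ^ 2 / J) := by field_simp
  have ej : p * r * y ^ 2 / p / J = r * (y ^ 2 / J) := by field_simp
  rw [hyy, ei, ej]
  calc (g i - g j) ^ 2 * ‖xe‖ * ‖we‖ = ((g i - g j) ^ 2 * s) * (‖xe‖ * y) := by rw [hwy]; ring
    _ ≤ (16 * (p + r)) * ((J * ‖xe‖ ^ 2 + y ^ 2 / J) / 2) :=
        mul_le_mul hk am (by positivity) (by positivity)
    _ = _ := by ring

/-- An operator of the form `x ⊗ y` contributes at most a constant, whatever the state. -/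
lemma norm_dform_tens_le (ψ : a × b → ℂ) (hψ : sqn ψ = 1) {g : a → ℝ} (hg : LogLip ψ g)
    {x : Matrix a a ℂ} {y : Matrix b b ℂ} {J : ℝ} (hJ : 0 < J)
    (hx : BoundedBy 1 x) (hy : BoundedBy J y) :
    ‖dform ψ g (tens x y)‖ ≤ 16 * J := by
  have hX : BoundedBy 1 (xrot ψ x) := by
    have hU := boundedBy_of_isometry (eigU_star_mul ψ)
    simpa [xrot] using (hU.adjoint.mul hx).mul hU
  have rowX : ∀ i, ∑ j, ‖xrot ψ x i j‖ ^ 2 ≤ 1 := fun i => by
    simpa [Complex.normSq_eq_norm_sq] using hX.row_le i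
  have colX : ∀ j, ∑ i, ‖xrot ψ x i j‖ ^ 2 ≤ 1 := fun j => by
    simpa [Complex.normSq_eq_norm_sq] using hX.col_le j
  have rowW : ∀ i, ∑ j, ‖wmat ψ y i j‖ ^ 2 / lam ψ j ≤ J ^ 2 * lam ψ i := by
    intro i
    have hb := bessel_le (rot ψ ψ) (lam ψ) (rot_orth ψ) (yᴴ *ᵥ rot ψ ψ i)
    refine le_trans (le_of_eq ?_) (hb.trans ((hy.adjoint _).trans_eq (by rw [← lam_eq_sqn])))
    refine Finset.sum_congr rfl fun j _ => ?_
    rw [← Complex.normSq_eq_norm_sq, wmat, pair_mulVec_right, ← conj_pair (rot ψ ψ j),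
      Complex.normSq_conj]
  have colW : ∀ j, ∑ i, ‖wmat ψ y i j‖ ^ 2 / lam ψ i ≤ J ^ 2 * lam ψ j := by
    intro j
    have hb := bessel_le (rot ψ ψ) (lam ψ) (rot_orth ψ) (y *ᵥ rot ψ ψ j)
    refine le_trans (le_of_eq ?_) (hb.trans ((hy _).trans_eq (by rw [← lam_eq_sqn])))
    simp [wmat, Complex.normSq_eq_norm_sq]
  have hz : ∀ i j, (lam ψ i = 0 → wmat ψ y i j = 0) ∧ (lam ψ j = 0 → wmat ψ y i j = 0) := by
    intro i j
    constructor <;> intro h <;> rw [lam_eq_sqn, sqn_eq_zero] at h <;>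
      simp [wmat, h, pair]
  have h1 : ‖dform ψ g (tens x y)‖
      ≤ (∑ i, ∑ j, (g i - g j) ^ 2 * ‖xrot ψ x i j‖ * ‖wmat ψ y i j‖) / 2 := by
    rw [dform_tens, norm_div, norm_neg]
    simp only [Complex.norm_ofNat]
    refine div_le_div_of_nonneg_right ?_ (by norm_num)
    refine (norm_sum_le _ _).trans (Finset.sum_le_sum fun i _ => ?_)
    refine (norm_sum_le _ _).trans (Finset.sum_le_sum fun j _ => le_of_eq ?_)
    rw [norm_mul, norm_mul, Complex.norm_real, Real.norm_eq_abs, abs_of_nonneg (sq_nonneg _)]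
  refine h1.trans ?_
  have h2 : ∑ i, ∑ j, (g i - g j) ^ 2 * ‖xrot ψ x i j‖ * ‖wmat ψ y i j‖
      ≤ 8 * (J + J + J + J) := by
    refine le_trans (Finset.sum_le_sum fun i _ => Finset.sum_le_sum fun j _ =>
      term_le ψ hg _ _ i j hJ (hz i j).1 (hz i j).2) ?_
    simp only [← Finset.mul_sum, Finset.sum_add_distrib]
    refine mul_le_mul_of_nonneg_left ?_ (by norm_num)
    have hl : ∑ i, lam ψ i = 1 := by rw [sum_lam, hψ]
    refine add_le_add (add_le_add (add_le_add ?_ ?_) ?_) ?_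
    · calc _ ≤ ∑ i, lam ψ i * (J * 1) := by
            refine Finset.sum_le_sum fun i _ => ?_
            exact mul_le_mul_of_nonneg_left (mul_le_mul_of_nonneg_left (rowX i) hJ.le)
              (lam_nonneg ψ i)
        _ = J := by rw [← Finset.sum_mul, hl]; ring
    · rw [Finset.sum_comm]
      simp only [← Finset.mul_sum]
      calc _ ≤ ∑ i, lam ψ i * (J * 1) := by
            refine Finset.sum_le_sum fun i _ => ?_
            exact mul_le_mul_of_nonneg_left (mul_le_mul_of_nonneg_left (colX i) hJ.le)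
              (lam_nonneg ψ i)
        _ = J := by rw [← Finset.sum_mul, hl]; ring
    · simp only [← Finset.sum_div]
      rw [div_le_iff₀ hJ]
      calc _ ≤ ∑ i, J ^ 2 * lam ψ i := Finset.sum_le_sum fun i _ => rowW i
        _ = J * J := by rw [← Finset.mul_sum, hl]; ring
    · rw [Finset.sum_comm]
      simp only [← Finset.sum_div]
      rw [div_le_iff₀ hJ]
      calc _ ≤ ∑ i, J ^ 2 * lam ψ i := Finset.sum_le_sum fun i _ => colW i
        _ = J * J := by rw [← Finset.mul_sum, hl]; ring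
  linarith

/-- The gap hypothesis on an eigenvector `ψ`. -/
def GapAt (H : Matrix (a × b) (a × b) ℂ) (ψ : a × b → ℂ) (E Δ : ℝ) : Prop :=
  ∀ v, Δ * (sqn v - Complex.normSq (pair ψ v)) ≤ (pair v (H *ᵥ v)).re - E * sqn v

/-- The variance of `g` in the Schmidt distribution. -/
noncomputable def gvar (ψ : a × b → ℂ) (g : a → ℝ) : ℝ :=
  (∑ i, lam ψ i * g i ^ 2) - (∑ i, lam ψ i * g i) ^ 2

/-- Poincare inequality for functions of the reduced density matrix. -/
lemma gap_mul_gvar_le {H : Matrix (a × b) (a × b) ℂ} (hH : H.IsHermitian) {ψ : a × b → ℂ}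
    {E Δ : ℝ} (heig : H *ᵥ ψ = (E : ℂ) • ψ) (hgap : GapAt H ψ E Δ) (g : a → ℝ) :
    Δ * gvar ψ g ≤ (dform ψ g H).re := by
  have h1 := hgap (fvec ψ g)
  have hs : sqn (fvec ψ g) = ∑ i, lam ψ i * g i ^ 2 := by
    rw [sqn_fvec]; exact Finset.sum_congr rfl fun i _ => by ring
  have hp : pair ψ (fvec ψ g) = ((∑ i, lam ψ i * g i : ℝ) : ℂ) := by
    have := pair_fvec ψ (fun _ => 1) g
    simpa [fvec_one] using this
  have hn : Complex.normSq (pair ψ (fvec ψ g)) = (∑ i, lam ψ i * g i) ^ 2 := by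
    rw [hp, Complex.normSq_ofReal]; ring
  have e1 : pair (fvec ψ fun i => g i * g i) (H *ᵥ ψ)
      = ((E * ∑ i, lam ψ i * g i ^ 2 : ℝ) : ℂ) := by
    have := pair_fvec ψ (fun i => g i * g i) (fun _ => 1)
    rw [fvec_one] at this
    rw [heig, pair_smul_right, this]
    push_cast
    congr 1
    exact Finset.sum_congr rfl fun i _ => by ring
  have e2 : pair ψ (H *ᵥ fvec ψ fun i => g i * g i)
      = ((E * ∑ i, lam ψ i * g i ^ 2 : ℝ) : ℂ) := by
    rw [pair_mulVec_right, hH.eq, ← conj_pair, e1, Complex.conj_ofReal]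
  have e3 : (dform ψ g H).re
      = (pair (fvec ψ g) (H *ᵥ fvec ψ g)).re - E * ∑ i, lam ψ i * g i ^ 2 := by
    rw [dform, e1, e2, Complex.sub_re]
    congr 1
    rw [← Complex.ofReal_add, ← Complex.ofReal_ofNat, ← Complex.ofReal_div, Complex.ofReal_re]
    ring
  rw [gvar, e3, ← hs]
  rw [hn] at h1
  linarith

end Vale.P356
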