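import Vale.Agent.P356.Spin

/-!
For a ferromagnetic transverse-field Ising Hamiltonian, decreasing the couplings does not close
the spectral gap.
-/

namespace Vale.P356

open Finset

/-- The normalised Hadamard kernel. -/
noncomputable def hadKer : Ker :=
  fun _ s b => (Real.sqrt 2 / 2) * (if s = 1 ∧ b = 1 then -1 else 1)

/-- Identity on equal spins, Hadamard on unequal spins. -/
noncomputable def mixKer : Ker :=
  fun u s b => if u = 0 then (if s = b then 1 else 0) else hadKer u s b

lemma half_sq : (Real.sqrt 2 / 2) * (Real.sqrt 2 / 2) = (1 / 2 : ℝ) := by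
  rw [div_mul_div_comm, Real.mul_self_sqrt (by norm_num)]; norm_num

lemma hadKer_orth : Orth hadKer := by
  intro u a b
  have h : ∀ p r : ℝ, (Real.sqrt 2 / 2 * p) * (Real.sqrt 2 / 2 * r) = p * r / 2 := by
    intro p r; rw [mul_mul_mul_comm, half_sq]; ring
  fin_cases a <;> fin_cases b <;> simp [hadKer, Fin.sum_univ_two, h] <;>
    linarith [half_sq]

lemma mixKer_orth : Orth mixKer := by
  intro u a b
  by_cases hu : u = 0
  · fin_cases a <;> fin_cases b <;> simp [mixKer, hu, Fin.sum_univ_two]
  · simpa [mixKer, hu] using hadKer_orth u a b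

lemma hadKer_rowsum (u s : Fin 2) : 0 ≤ ∑ b, hadKer u s b := by
  have : (0 : ℝ) ≤ Real.sqrt 2 := Real.sqrt_nonneg _
  fin_cases s <;> simp [hadKer, Fin.sum_univ_two] <;> positivity

lemma mixKer_rowsum (u s : Fin 2) : 0 ≤ ∑ b, mixKer u s b := by
  by_cases hu : u = 0
  · fin_cases s <;> simp [mixKer, hu, Fin.sum_univ_two]
  · simpa [mixKer, hu] using hadKer_rowsum u s

lemma hadKer_zv (u u' s s' : Fin 2) :
    0 ≤ ∑ b, zv b * (hadKer u s b * hadKer u' s' b) := by
  have h : ∀ p r : ℝ, (Real.sqrt 2 / 2 * p) * (Real.sqrt 2 / 2 * r) = p * r / 2 := by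
    intro p r; rw [mul_mul_mul_comm, half_sq]; ring
  fin_cases s <;> fin_cases s' <;> simp [hadKer, Fin.sum_univ_two, zv, h] <;>
    linarith [half_sq, Real.sqrt_nonneg (2 : ℝ)]

lemma hadKer_flip (u s b : Fin 2) : hadKer u s (b + 1) = zv s * hadKer u s b := by
  fin_cases s <;> fin_cases b <;> simp [hadKer, zv]

variable {V : Type*} [Fintype V] [DecidableEq V]

lemma elem_field_nonneg {M : Ker} (hM : Orth M) (hrow : ∀ u s, 0 ≤ ∑ b, M u s b)
    (x : V) (u s s' : V → Fin 2) :
    0 ≤ elem M (fun _ _ => (1 : ℝ)) (flipVec x) u (u + flipVec x) s s'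
      + elem M (fun _ _ => (1 : ℝ)) 0 u (u + flipVec x) s s' := by
  have hrest : ∀ d : V → Fin 2, (∀ z, z ≠ x → d z = 0) →
      ∏ z ∈ univ.erase x, ∑ b, (1 : ℝ) * (M (u z) (s z) b * M ((u + flipVec x) z) (s' z) (b + d z))
        = ∏ z ∈ univ.erase x, if s z = s' z then (1 : ℝ) else 0 := by
    intro d hd
    refine Finset.prod_congr rfl fun z hz => ?_
    have hzx : z ≠ x := (Finset.mem_erase.1 hz).1
    have hu : (u + flipVec x) z = u z := by simp [flipVec, hzx]
    simp only [hu, hd z hzx, add_zero, one_mul, (hM _ _ _).2]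
  unfold elem
  rw [← Finset.mul_prod_erase _ _ (Finset.mem_univ x), ← Finset.mul_prod_erase _ _ (Finset.mem_univ x),
    hrest (flipVec x) (fun z hz => by simp [flipVec, hz]), hrest 0 (fun _ _ => rfl), ← add_mul]
  refine mul_nonneg ?_ (Finset.prod_nonneg fun z _ => by split <;> norm_num)
  have hx : (u + flipVec x) x = u x + 1 := by simp [flipVec]
  have e : (∑ b, (1 : ℝ) * (M (u x) (s x) b * M ((u + flipVec x) x) (s' x) (b + flipVec x x)))
      + ∑ b, (1 : ℝ) * (M (u x) (s x) b * M ((u + flipVec x) x) (s' x) (b + (0 : V → Fin 2) x))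
      = (∑ b, M (u x) (s x) b) * ∑ b, M (u x + 1) (s' x) b := by
    simp [hx, flipVec, Fin.sum_univ_two]
    ring
  rw [e]
  exact mul_nonneg (hrow _ _) (hrow _ _)

lemma elem_bond_eq_zero {M : Ker} (hM : Orth M) (x y : V) (u s s' : V → Fin 2)
    (hne : s ≠ s') (h : x = y ∨ ((∀ b c, u x = 0 → M (u x) b c = if b = c then 1 else 0) ∧
      u x = 0 ∧ u y = 0)) :
    elem M (bondPhi x y) 0 u u s s' = 0 := by
  obtain ⟨z, hz⟩ := Function.ne_iff.1 hne
  refine Finset.prod_eq_zero (Finset.mem_univ z) ?_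
  simp only [Pi.zero_apply, add_zero]
  by_cases hzz : x = y ∨ (z ≠ x ∧ z ≠ y)
  · have : ∀ b, bondPhi x y z b = 1 := by
      intro b
      rcases hzz with rfl | ⟨h1, h2⟩
      · by_cases h1 : z = x <;> simp [bondPhi, h1, zv_sq]
      · simp [bondPhi, h1, h2]
    simp only [this, one_mul, (hM _ _ _).2, if_neg hz]
  · rcases h with hxy | ⟨hid, hux, huy⟩
    · exact absurd (Or.inl hxy) hzz
    · have huz : u z = u x := by
        push Not at hzz
        by_cases h1 : z = x
        · rw [h1]
        · rw [hzz.2 h1, huy, hux]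
      rw [huz]
      refine Finset.sum_eq_zero fun b _ => ?_
      rw [hid _ _ hux, hid _ _ hux]
      by_cases h1 : s z = b <;> by_cases h2 : s' z = b <;> simp [h1, h2]
      exact absurd (h1.trans h2.symm) hz

lemma elem_bond_nonneg {M : Ker} (hM : Orth M) (x y : V) (hxy : x ≠ y) (u s s' : V → Fin 2)
    (hx : ∀ a a', 0 ≤ ∑ b, zv b * (M (u x) a b * M (u x) a' b))
    (hy : ∀ a a', 0 ≤ ∑ b, zv b * (M (u y) a b * M (u y) a' b)) :
    0 ≤ elem M (bondPhi x y) 0 u u s s' := by
  refine Finset.prod_nonneg fun z _ => ?_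
  simp only [Pi.zero_apply, add_zero]
  by_cases h1 : z = x
  · subst h1; simpa [bondPhi, hxy] using hx (s z) (s' z)
  · by_cases h2 : z = y
    · subst h2; simpa [bondPhi, h1] using hy (s z) (s' z)
    · simp only [bondPhi, h1, h2, if_false, mul_one, one_mul, (hM _ _ _).2]
      split <;> norm_num

/-- The all-ones configuration, used as the global spin flip. -/
def allOne (V : Type*) : V → Fin 2 := fun _ => 1

omit [DecidableEq V] in
lemma bondEn_flip (Jc : V → V → ℝ) (σ : V → Fin 2) : bondEn Jc (σ + allOne V) = bondEn Jc σ := by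
  refine Finset.sum_congr rfl fun x _ => Finset.sum_congr rfl fun y _ => ?_
  have h1 : zv (1 : Fin 2) = -1 := by simp [zv]
  simp only [Pi.add_apply, allOne, zv_add, h1]
  ring

lemma qf_flip (g : V → ℝ) (Jc : V → V → ℝ) (v : (V → Fin 2) → ℝ) :
    qf g Jc (fun σ => v (σ + allOne V)) = qf g Jc v := by
  rw [qf, qf, ip, ip]
  conv_rhs => rw [← Equiv.sum_comp (Equiv.addRight (allOne V))]
  refine Finset.sum_congr rfl fun σ _ => ?_
  simp only [Equiv.coe_addRight, hmul, bondEn_flip, add_right_comm]

lemma ip_hmul_symm (g : V → ℝ) (Jc : V → V → ℝ) (v w : (V → Fin 2) → ℝ) :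
    ip v (hmul g Jc w) = ip w (hmul g Jc v) := by
  simp only [ip, hmul, mul_sub, Finset.sum_sub_distrib, Finset.mul_sum]
  congr 1
  · exact Finset.sum_congr rfl fun σ _ => by ring
  · rw [Finset.sum_comm]
    conv_rhs => rw [Finset.sum_comm]
    refine Finset.sum_congr rfl fun x _ => ?_
    conv_lhs => rw [← Equiv.sum_comp (Equiv.addRight (flipVec x))]
    refine Finset.sum_congr rfl fun σ _ => ?_
    simp only [Equiv.coe_addRight, add_add_self]
    ring

lemma qf_lin (g : V → ℝ) (Jc : V → V → ℝ) (a b : ℝ) (v w : (V → Fin 2) → ℝ) :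
    qf g Jc (fun σ => a * v σ + b * w σ)
      = a * a * qf g Jc v + 2 * a * b * ip v (hmul g Jc w) + b * b * qf g Jc w := by
  have h : hmul g Jc (fun σ => a * v σ + b * w σ)
      = fun σ => a * hmul g Jc v σ + b * hmul g Jc w σ := by
    funext σ
    simp only [hmul, mul_sub, Finset.mul_sum, mul_add, Finset.sum_add_distrib]
    have : ∀ (c : ℝ) (u : (V → Fin 2) → ℝ), ∑ x, g x * (c * u (σ + flipVec x))
        = ∑ x, c * (g x * u (σ + flipVec x)) := fun c u =>
      Finset.sum_congr rfl fun x _ => by ring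
    rw [this, this]; ring
  have hs := ip_hmul_symm g Jc v w
  simp only [qf, ip] at hs ⊢
  simp only [h, mul_add, add_mul, Finset.sum_add_distrib]
  have e : ∀ (c d : ℝ) (p r : (V → Fin 2) → ℝ), ∑ σ, c * p σ * (d * r σ) = c * d * ∑ σ, p σ * r σ := by
    intro c d p r; rw [Finset.mul_sum]; exact Finset.sum_congr rfl fun σ _ => by ring
  rw [e, e, e, e, ← hs]
  ring

omit [DecidableEq V] in
lemma nsq_lin (a b : ℝ) (v w : (V → Fin 2) → ℝ) [DecidableEq V] :
    nsq (fun σ => a * v σ + b * w σ) = a * a * nsq v + 2 * a * b * ip v w + b * b * nsq w := by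
  simp only [nsq, ip, Finset.mul_sum, ← Finset.sum_add_distrib]
  exact Finset.sum_congr rfl fun σ _ => by ring

lemma qf_abs_le (g : V → ℝ) (hg : ∀ x, 0 ≤ g x) (Jc : V → V → ℝ) (v : (V → Fin 2) → ℝ) :
    qf g Jc (fun σ => |v σ|) ≤ qf g Jc v := by
  refine Finset.sum_le_sum fun σ _ => ?_
  simp only [hmul, mul_sub, Finset.mul_sum, mul_neg]
  refine sub_le_sub (le_of_eq ?_) (Finset.sum_le_sum fun x _ => ?_)
  · rw [mul_left_comm, abs_mul_abs_self]; ring
  · calc v σ * (g x * v (σ + flipVec x)) = g x * (v σ * v (σ + flipVec x)) := by ring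
      _ ≤ g x * (|v σ| * |v (σ + flipVec x)|) :=
          mul_le_mul_of_nonneg_left (by rw [← abs_mul]; exact le_abs_self _) (hg x)
      _ = _ := by ring

/-- Ground state, energy and gap for the real Hamiltonian. -/
def GapR (g : V → ℝ) (Jc : V → V → ℝ) (Ω : (V → Fin 2) → ℝ) (E Δ : ℝ) : Prop :=
  nsq Ω = 1 ∧ (∀ σ, hmul g Jc Ω σ = E * Ω σ) ∧
    ∀ v, Δ * (nsq v - ip Ω v ^ 2) ≤ qf g Jc v - E * nsq v

lemma ip_sq_le {ι : Type*} [Fintype ι] (v w : ι → ℝ) : ip v w ^ 2 ≤ nsq v * nsq w := by
  have h := Finset.sum_mul_sq_le_sq_mul_sq Finset.univ v w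
  simpa [ip, nsq, pow_two] using h

lemma nsq_nonneg {ι : Type*} [Fintype ι] (v : ι → ℝ) : 0 ≤ nsq v :=
  Finset.sum_nonneg fun _ _ => mul_self_nonneg _

lemma eq_of_ip_one {ι : Type*} [Fintype ι] (v w : ι → ℝ) (hv : nsq v = 1) (hw : nsq w = 1)
    (h : ip v w = 1) : w = v := by
  have : ∑ i, (w i - v i) * (w i - v i) = 0 := by
    have e : ∑ i, (w i - v i) * (w i - v i) = nsq w - 2 * ip v w + nsq v := by
      simp only [nsq, ip, Finset.mul_sum, ← Finset.sum_sub_distrib, ← Finset.sum_add_distrib]
      exact Finset.sum_congr rfl fun i _ => by ring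
    rw [e, hv, hw, h]; ring
  funext i
  have := (Finset.sum_eq_zero_iff_of_nonneg fun i _ => mul_self_nonneg (w i - v i)).1 this i
    (Finset.mem_univ i)
  linarith [mul_self_eq_zero.1 this]

lemma GapR.even {g : V → ℝ} (hg : ∀ x, 0 ≤ g x) {Jc : V → V → ℝ} {Ω : (V → Fin 2) → ℝ}
    {E Δ : ℝ} (h : GapR g Jc Ω E Δ) (hΔ : 0 < Δ) (σ : V → Fin 2) :
    Ω (σ + allOne V) = Ω σ := by
  obtain ⟨hn, heig, hgap⟩ := h
  have hq : qf g Jc Ω = E := by
    have : qf g Jc Ω = E * nsq Ω := by
      simp only [qf, ip, nsq, Finset.mul_sum, heig]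
      exact Finset.sum_congr rfl fun σ _ => by ring
    rw [this, hn, mul_one]
  have low : ∀ w, nsq w = 1 → qf g Jc w ≤ E → ip Ω w = 1 ∨ ip Ω w = -1 := by
    intro w hw hle
    have h1 := hgap w
    have h2 := ip_sq_le Ω w
    rw [hn, hw] at h2
    rw [hw] at h1
    have h3 : ip Ω w ^ 2 = 1 := by nlinarith
    exact sq_eq_one_iff.1 h3
  set a : (V → Fin 2) → ℝ := fun σ => |Ω σ| with ha
  have han : nsq a = 1 := by rw [← hn]; simp [nsq, ha, abs_mul_abs_self]
  have haq : qf g Jc a ≤ E := (qf_abs_le g hg Jc Ω).trans hq.le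
  set f : (V → Fin 2) → ℝ := fun σ => a (σ + allOne V) with hf
  have hfn : nsq f = 1 := by
    rw [← han]; exact Equiv.sum_comp (Equiv.addRight (allOne V)) (fun σ => a σ * a σ)
  have hfq : qf g Jc f ≤ E := by rw [hf, qf_flip]; exact haq
  have hneg : ∀ w : (V → Fin 2) → ℝ, nsq w = 1 → ip Ω w = -1 → w = fun σ => -Ω σ := by
    intro w hw hi
    refine eq_of_ip_one _ w ?_ hw ?_
    · simpa [nsq] using hn
    · simp only [ip, neg_mul, Finset.sum_neg_distrib] at hi ⊢
      linarith
  have hfa : f = a := by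
    have hpos : 0 ≤ ip a f := Finset.sum_nonneg fun σ _ => mul_nonneg (abs_nonneg _) (abs_nonneg _)
    rcases low a han haq with h1 | h1 <;> rcases low f hfn hfq with h2 | h2
    · rw [eq_of_ip_one _ a hn han h1, eq_of_ip_one _ f hn hfn h2]
    · rw [eq_of_ip_one _ a hn han h1, h2] at hpos; linarith
    · exfalso
      rw [eq_of_ip_one _ f hn hfn h2] at hpos
      have : ip a Ω = ip Ω a := Finset.sum_congr rfl fun σ _ => mul_comm _ _
      linarith
    · rw [hneg a han h1, hneg f hfn h2]
  have hσ := congrFun hfa σ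
  rcases low a han haq with h1 | h1
  · have e := eq_of_ip_one _ a hn han h1
    simp only [hf, e] at hσ
    exact hσ
  · have e := hneg a han h1
    simp only [hf, e] at hσ
    linarith

lemma exists_min (g : V → ℝ) (Jc : V → V → ℝ) :
    ∃ u E, nsq u = 1 ∧ qf g Jc u = E ∧ ∀ v, E * nsq v ≤ qf g Jc v := by
  set S : Set ((V → Fin 2) → ℝ) := {v | nsq v = 1} with hS
  have hc : Continuous (fun v : (V → Fin 2) → ℝ => nsq v) := by unfold nsq; fun_prop
  have hcq : Continuous (qf g Jc) := by unfold qf ip hmul; fun_prop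
  have hsub : S ⊆ Set.pi Set.univ (fun _ => Set.Icc (-1 : ℝ) 1) := by
    intro v hv σ _
    have h1 : v σ * v σ ≤ nsq v :=
      Finset.single_le_sum (f := fun i => v i * v i) (fun i _ => mul_self_nonneg _)
        (Finset.mem_univ σ)
    have hv1 : nsq v = 1 := hv
    constructor <;> nlinarith
  have hcomp : IsCompact S :=
    (isCompact_univ_pi fun _ => isCompact_Icc).of_isClosed_subset (isClosed_eq hc continuous_const) hsub
  have hne : S.Nonempty := ⟨Pi.single 0 1, by simp [hS, nsq, Pi.single_apply]⟩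
  obtain ⟨u, hu, hmin⟩ := hcomp.exists_isMinOn hne hcq.continuousOn
  refine ⟨u, qf g Jc u, hu, rfl, fun v => ?_⟩
  rcases (nsq_nonneg v).eq_or_lt with h | h
  · have hv : v = 0 := by
      funext σ
      have := (Finset.sum_eq_zero_iff_of_nonneg fun i _ => mul_self_nonneg (v i)).1 h.symm σ
        (Finset.mem_univ σ)
      exact mul_self_eq_zero.1 this
    subst hv
    simp [← h, qf, ip]
  · set c := (Real.sqrt (nsq v))⁻¹ with hc'
    have hcc : c * c * nsq v = 1 := by
      rw [hc', ← mul_inv, Real.mul_self_sqrt h.le, inv_mul_cancel₀ h.ne']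
    have hmem : (fun σ => c * v σ + 0 * v σ) ∈ S := by
      show nsq _ = 1
      rw [nsq_lin]; simpa using hcc
    have := hmin hmem
    simp only [Set.mem_ofPred_eq] at this
    rw [qf_lin] at this
    have h2 := mul_le_mul_of_nonneg_right this h.le
    calc qf g Jc u * nsq v ≤ _ := h2
      _ = (c * c * nsq v) * qf g Jc v := by ring
      _ = _ := by rw [hcc, one_mul]

lemma exists_even_ground (g : V → ℝ) (hg : ∀ x, 0 ≤ g x) (Jc : V → V → ℝ) :
    ∃ u E, nsq u = 1 ∧ (∀ σ, hmul g Jc u σ = E * u σ) ∧ (∀ σ, u (σ + allOne V) = u σ) ∧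
      ∀ v, E * nsq v ≤ qf g Jc v := by
  obtain ⟨v, E, hv, hvE, hmin⟩ := exists_min g Jc
  set a : (V → Fin 2) → ℝ := fun σ => |v σ| with ha
  set f : (V → Fin 2) → ℝ := fun σ => a (σ + allOne V) with hf
  have han : nsq a = 1 := by rw [← hv]; simp [nsq, ha, abs_mul_abs_self]
  have haq : qf g Jc a = E := by
    have h1 := (qf_abs_le g hg Jc v).trans hvE.le
    have h2 := hmin a
    rw [han, mul_one] at h2
    exact le_antisymm h1 h2
  have eig : ∀ w, qf g Jc w = E * nsq w → ∀ σ, hmul g Jc w σ = E * w σ := by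
    intro w hw σ
    set r : (V → Fin 2) → ℝ := fun σ => hmul g Jc w σ - E * w σ with hr
    have e : ip r (hmul g Jc w) - E * ip r w = nsq r := by
      simp only [ip, nsq, Finset.mul_sum, ← Finset.sum_sub_distrib]
      exact Finset.sum_congr rfl fun σ _ => by simp only [hr]; ring
    have key : ∀ t : ℝ, 0 ≤ 2 * t * nsq r + t * t * (qf g Jc r - E * nsq r) := by
      intro t
      have h := hmin (fun σ => t * r σ + 1 * w σ)
      rw [qf_lin, nsq_lin, hw] at h
      have h' : t * ip r (hmul g Jc w) - E * (t * ip r w) = t * nsq r := by rw [← e]; ring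
      linarith
    have h0 : nsq r = 0 := by
      by_contra hne
      have hp : 0 < nsq r := lt_of_le_of_ne (nsq_nonneg r) (Ne.symm hne)
      set c := qf g Jc r - E * nsq r
      have hd : (0 : ℝ) < |c| + 1 := by positivity
      have h := key (-(nsq r / (|c| + 1)))
      have hc1 : c ≤ |c| + 1 := by linarith [le_abs_self c]
      have hq : nsq r / (|c| + 1) * (|c| + 1) = nsq r := div_mul_cancel₀ _ hd.ne'
      have hq0 : 0 < nsq r / (|c| + 1) := div_pos hp hd
      nlinarith [mul_le_mul_of_nonneg_left hc1 (mul_self_nonneg (nsq r / (|c| + 1)))]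
    have := (Finset.sum_eq_zero_iff_of_nonneg fun i _ => mul_self_nonneg (r i)).1 h0 σ
      (Finset.mem_univ σ)
    linarith [mul_self_eq_zero.1 this]
  have hea := eig a (by rw [haq, han, mul_one])
  have hef : ∀ σ, hmul g Jc f σ = E * f σ := eig f (by
    rw [hf, qf_flip, haq,
      show nsq (fun σ => a (σ + allOne V)) = 1 from
        (Equiv.sum_comp (Equiv.addRight (allOne V)) (fun σ => a σ * a σ)).trans han, mul_one])
  set b : (V → Fin 2) → ℝ := fun σ => a σ + f σ with hb
  have hbn : 1 ≤ nsq b := by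
    rw [← han]
    refine Finset.sum_le_sum fun σ _ => ?_
    have h1 : 0 ≤ a σ := abs_nonneg _
    have h2 : 0 ≤ f σ := abs_nonneg _
    simp only [hb]
    nlinarith
  set c := (Real.sqrt (nsq b))⁻¹ with hc
  refine ⟨fun σ => c * b σ, E, ?_, fun σ => ?_, fun σ => ?_, hmin⟩
  · have : nsq (fun σ => c * b σ) = c * c * nsq b := by
      simp only [nsq, Finset.mul_sum]; exact Finset.sum_congr rfl fun σ _ => by ring
    rw [this, hc, ← mul_inv, Real.mul_self_sqrt (by linarith), inv_mul_cancel₀ (by linarith)]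
  · have : hmul g Jc (fun σ => c * b σ) σ = c * (hmul g Jc a σ + hmul g Jc f σ) := by
      simp only [hmul, hb, mul_add, mul_sub, mul_neg, Finset.mul_sum, Finset.sum_add_distrib]
      have : ∀ (u : (V → Fin 2) → ℝ), ∑ x, g x * (c * u (σ + flipVec x))
          = ∑ x, c * (g x * u (σ + flipVec x)) := fun u =>
        Finset.sum_congr rfl fun x _ => by ring
      rw [this, this]; ring
    rw [this, hea, hef, hb]; ring
  · simp only [hb, hf, add_add_self]; ring

/-- Odd part under the global spin flip. -/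
noncomputable def oddPart (v : (V → Fin 2) → ℝ) : (V → Fin 2) → ℝ :=
  fun σ => (v σ - v (σ + allOne V)) / 2

/-- Even part under the global spin flip. -/
noncomputable def evenPart (v : (V → Fin 2) → ℝ) : (V → Fin 2) → ℝ :=
  fun σ => (v σ + v (σ + allOne V)) / 2

lemma GapR.slice {g : V → ℝ} (hg : ∀ x, 0 ≤ g x) {Jc : V → V → ℝ} {Ω : (V → Fin 2) → ℝ}
    {E Δ : ℝ} (h : GapR g Jc Ω E Δ) (hΔ : 0 < Δ) (v : (V → Fin 2) → ℝ) :
    E * nsq v + Δ * nsq (oddPart v) ≤ qf g Jc v := by
  have hev := h.even hg hΔ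
  obtain ⟨hn, -, hgap⟩ := h
  have h1 : ip Ω (oddPart v) = 0 := by
    have : ∑ σ, Ω σ * v (σ + allOne V) = ∑ σ, Ω σ * v σ := by
      rw [← Equiv.sum_comp (Equiv.addRight (allOne V))]
      simp [add_add_self, hev]
    simp only [ip, oddPart, mul_div_assoc', mul_sub, ← Finset.sum_div, Finset.sum_sub_distrib, this,
      sub_self, zero_div]
  have h2 : ip Ω v = ip Ω (evenPart v) := by
    have : ip Ω v = ip Ω (evenPart v) + ip Ω (oddPart v) := by
      simp only [ip, ← Finset.sum_add_distrib]
      exact Finset.sum_congr rfl fun σ _ => by simp only [evenPart, oddPart]; ring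
    rw [this, h1, add_zero]
  have h3 : nsq v = nsq (evenPart v) + nsq (oddPart v) := by
    have : ∑ σ : V → Fin 2, v (σ + allOne V) * v (σ + allOne V) = nsq v :=
      Equiv.sum_comp (Equiv.addRight (allOne V)) (fun σ => v σ * v σ)
    have e : nsq (evenPart v) + nsq (oddPart v)
        = (nsq v + ∑ σ : V → Fin 2, v (σ + allOne V) * v (σ + allOne V)) / 2 := by
      simp only [nsq, ← Finset.sum_add_distrib, Finset.sum_div]
      exact Finset.sum_congr rfl fun σ _ => by simp only [evenPart, oddPart]; ring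
    rw [e, this]; ring
  have h4 := ip_sq_le Ω (evenPart v)
  rw [hn, one_mul, ← h2] at h4
  have := hgap v
  nlinarith

/-- Odd vectors keep their excess energy when the couplings decrease. -/
lemma odd_gap_mono {g : V → ℝ} (hg : ∀ x, 0 ≤ g x) {J J' : V → V → ℝ}
    (hJ : ∀ x y, 0 ≤ J' x y ∧ J' x y ≤ J x y)
    {Ω : (V → Fin 2) → ℝ} {E Δ : ℝ} (h : GapR g J Ω E Δ) (hΔ : 0 < Δ) {E' : ℝ}
    (hmin : ∀ v, E' * nsq v ≤ qf g J' v)
    (v : (V → Fin 2) → ℝ) (hv : ∀ σ, v (σ + allOne V) = -v σ) :
    (E' + Δ) * nsq v ≤ qf g J' v := by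
  have hev := h.even hg hΔ
  have hslice := h.slice hg hΔ
  obtain ⟨hn, heig, -⟩ := h
  set W : (V → Fin 2) → (V → Fin 2) → ℝ := fun u σ => Ω σ * v (σ + u) with hW
  set T := fwd hadKer W with hT
  set W' := bwd hadKer (fun a b => |T a b|) with hW'
  have hd0 : ∀ u u' : V → Fin 2, ∀ x s b, hadKer (u x) s (b + (0 : V → Fin 2) x)
      = (fun _ _ => (1 : ℝ)) x s * hadKer (u' x) (s + (0 : V → Fin 2) x) b := by
    intro u u' x s b; simp [hadKer]
  have hd1 : ∀ u : V → Fin 2, ∀ x s b, hadKer (u x) s (b + allOne V x)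
      = (fun _ a => zv a) x s * hadKer (u x) (s + (0 : V → Fin 2) x) b := by
    intro u x s b; simp [allOne, hadKer_flip]
  have t1 : ∀ u s, T (u + allOne V) s = -T u s := by
    intro u s
    have := fwd_symm hadKer 0 0 (u + allOne V) u (fun _ _ => 1) (hd0 _ _) W (-1)
      (fun σ => by simp [hW, ← add_assoc, hv]) s
    simpa [hT] using this
  have t2 : ∀ u s, T u s = -((∏ x : V, zv (s x)) * T u s) := by
    intro u s
    have := fwd_symm hadKer (allOne V) 0 u u (fun _ a => zv a) (hd1 u) W (-1)
      (fun σ => by simp [hW, hev, add_right_comm, hv]) s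
    simpa [hT] using this
  have w1 : ∀ u σ, W' (u + allOne V) σ = W' u σ := by
    intro u σ
    have := bwd_symm hadKer 0 0 (u + allOne V) u (fun _ _ => 1) (hd0 _ _)
      (fun a b => |T a b|) 1 (fun s => by simp [t1]) σ
    simpa [hW'] using this
  have w2 : ∀ u σ, W' u (σ + allOne V) = -W' u σ := by
    intro u σ
    have := bwd_symm hadKer (allOne V) 0 u u (fun _ a => zv a) (hd1 u)
      (fun a b => |T a b|) (-1) (fun s => by
        by_cases h0 : T u s = 0
        · simp [h0]
        · have h1 : (∏ x : V, zv (s x)) = -1 := by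
            have h2 := t2 u s
            have h3 : ((∏ x : V, zv (s x)) + 1) * T u s = 0 := by linarith
            rcases mul_eq_zero.1 h3 with h4 | h4
            · linarith
            · exact absurd h4 h0
          simp [h1]) σ
    simpa [hW'] using this
  have hle : qf2 g J J' W' ≤ qf2 g J J' W := by
    refine qf2_abs_le hadKer hadKer_orth g hg J J'
      (fun x u s s' => elem_field_nonneg hadKer_orth hadKer_rowsum x u s s') ?_ W
    intro x y u s s'
    by_cases hs : s = s'
    · exact Or.inr hs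
    left
    by_cases hxy : x = y
    · rw [elem_bond_eq_zero hadKer_orth x y u s s' hs (Or.inl hxy), mul_zero]
    · refine mul_nonneg ?_ (elem_bond_nonneg hadKer_orth x y hxy u s s'
        (fun a a' => hadKer_zv _ _ a a') (fun a a' => hadKer_zv _ _ a a'))
      obtain ⟨h1, h2⟩ := hJ x y
      have : |zv (u x) * zv (u y)| = 1 := by
        rw [abs_mul]; simp only [zv]; split <;> split <;> norm_num
      nlinarith [abs_le.1 this.le, mul_le_mul_of_nonneg_left (abs_le.1 this.le).1 h1]
  have hpv : ∀ σ τ, pairVec W σ τ = Ω σ * v τ := by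
    intro σ τ
    have : σ + (σ + τ) = τ := by funext x; simp [← add_assoc, fin2_add_self]
    simp [pairVec, hW, this]
  have hin : qf2 g J J' W = E * nsq v + qf g J' v := by
    rw [← qf_add_qf]
    have hqΩ : qf g J Ω = E := by
      have : qf g J Ω = E * nsq Ω := by
        simp only [qf, ip, nsq, Finset.mul_sum, heig]
        exact Finset.sum_congr rfl fun σ _ => by ring
      rw [this, hn, mul_one]
    have e1 : ∀ τ, qf g J (fun σ => pairVec W σ τ) = v τ * v τ * E := by
      intro τ
      have := qf_lin g J (v τ) 0 Ω Ω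
      simp only [hpv]
      simpa [hqΩ, mul_comm] using this
    have e2 : ∀ σ, qf g J' (pairVec W σ) = Ω σ * Ω σ * qf g J' v := by
      intro σ
      have h' : pairVec W σ = fun τ => Ω σ * v τ + 0 * v τ := by funext τ; simp [hpv]
      rw [h', qf_lin]; ring
    simp only [e1, e2, ← Finset.sum_mul]
    change nsq v * E + nsq Ω * qf g J' v = _
    rw [hn]; ring
  have hout : (E + Δ) * nsq v + E' * nsq v ≤ qf2 g J J' W' := by
    rw [← qf_add_qf]
    have hnv : ∑ σ, nsq (pairVec W' σ) = nsq v := by
      rw [nsq_pairVec]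
      have : ∀ u, nsq (W' u) = nsq (W u) := by
        intro u
        rw [hW', nsq_bwd hadKer hadKer_orth]
        conv_rhs => rw [← bwd_fwd hadKer hadKer_orth W, nsq_bwd hadKer hadKer_orth, ← hT]
        simp [nsq, abs_mul_abs_self]
      simp only [this]
      rw [← nsq_pairVec]
      have : ∀ σ, nsq (pairVec W σ) = Ω σ * Ω σ * nsq v := by
        intro σ
        simp only [nsq, hpv, Finset.mul_sum]
        exact Finset.sum_congr rfl fun τ _ => by ring
      simp only [this, ← Finset.sum_mul]
      change nsq Ω * _ = _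
      rw [hn, one_mul]
    refine add_le_add ?_ ?_
    · have hc : ∑ τ, nsq (fun σ => pairVec W' σ τ) = nsq v := by
        rw [← hnv]; exact Finset.sum_comm
      rw [← hc, Finset.mul_sum]
      refine Finset.sum_le_sum fun τ _ => ?_
      have := hslice (fun σ => pairVec W' σ τ)
      have ho : oddPart (fun σ => pairVec W' σ τ) = fun σ => pairVec W' σ τ := by
        funext σ
        have : pairVec W' (σ + allOne V) τ = -pairVec W' σ τ := by
          simp only [pairVec, add_right_comm σ (allOne V) τ, w2, w1]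
        simp only [oddPart, this]; ring
      rw [ho] at this
      linarith
    · rw [← hnv, Finset.mul_sum]
      exact Finset.sum_le_sum fun σ _ => hmin _
  linarith

/-- Even vectors orthogonal to the ground state cost at least as much as odd ones. -/
lemma even_gap_of_odd {g : V → ℝ} (hg : ∀ x, 0 ≤ g x) {J : V → V → ℝ} (hJ : ∀ x y, 0 ≤ J x y)
    {Ω : (V → Fin 2) → ℝ} {E Δ : ℝ} (hn : nsq Ω = 1) (heig : ∀ σ, hmul g J Ω σ = E * Ω σ)
    (hev : ∀ σ, Ω (σ + allOne V) = Ω σ)
    (hslice : ∀ v, E * nsq v + Δ * nsq (oddPart v) ≤ qf g J v)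
    (e : (V → Fin 2) → ℝ) (he : ∀ σ, e (σ + allOne V) = e σ) (hperp : ip Ω e = 0) :
    (E + Δ) * nsq e ≤ qf g J e := by
  set W : (V → Fin 2) → (V → Fin 2) → ℝ :=
    fun u σ => e σ * Ω (σ + u) - Ω σ * e (σ + u) with hW
  set T := fwd mixKer W with hT
  set W' := bwd mixKer (fun a b => |T a b|) with hW'
  set chi : (V → Fin 2) → V → Fin 2 → ℝ := fun u x s => if u x = 0 then 1 else zv s with hchi
  set pi : (V → Fin 2) → V → Fin 2 := fun u => allOne V + u with hpi
  have hd1 : ∀ u : V → Fin 2, ∀ x s b, mixKer (u x) s (b + allOne V x)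
      = chi u x s * mixKer (u x) (s + pi u x) b := by
    intro u x s b
    simp only [hchi, hpi, Pi.add_apply, allOne]
    generalize u x = a
    fin_cases a <;> fin_cases s <;> fin_cases b <;> simp [mixKer, hadKer, zv]
  have hd2 : ∀ u : V → Fin 2, ∀ x s b, mixKer (u x) s (b + u x)
      = chi u x s * mixKer (u x) (s + (0 : V → Fin 2) x) b := by
    intro u x s b
    simp only [hchi, Pi.zero_apply, add_zero]
    generalize u x = a
    fin_cases a <;> fin_cases s <;> fin_cases b <;> simp [mixKer, hadKer, zv]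
  have t1 : ∀ u s, T u s = (∏ x, chi u x (s x)) * T u (s + pi u) := by
    intro u s
    have := fwd_symm mixKer (allOne V) (pi u) u u (chi u) (hd1 u) W 1
      (fun σ => by simp [hW, hev, he, add_right_comm]) s
    simpa [hT] using this
  have t2 : ∀ u s, T u s = -((∏ x, chi u x (s x)) * T u s) := by
    intro u s
    have := fwd_symm mixKer u 0 u u (chi u) (hd2 u) W (-1)
      (fun σ => by simp [hW, add_add_self]; ring) s
    simpa [hT] using this
  have w2 : ∀ u σ, W' u (σ + allOne V) = -W' u σ := by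
    intro u σ
    have := bwd_symm mixKer (allOne V) (pi u) u u (chi u) (hd1 u)
      (fun a b => |T a b|) (-1) (fun s => by
        have hne : (∏ x, chi u x (s x)) ≠ 0 := Finset.prod_ne_zero_iff.2 fun x _ => by
          simp only [hchi, zv]; split <;> [norm_num; (split <;> norm_num)]
        by_cases h0 : T u s = 0
        · have := t1 u s
          rw [h0] at this
          rcases mul_eq_zero.1 this.symm with h | h
          · exact absurd h hne
          · simp [h0, h]
        · have h1 : (∏ x, chi u x (s x)) = -1 := by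
            have h2 := t2 u s
            have h3 : ((∏ x, chi u x (s x)) + 1) * T u s = 0 := by linarith
            rcases mul_eq_zero.1 h3 with h4 | h4
            · linarith
            · exact absurd h4 h0
          have := t1 u s
          rw [h1, neg_one_mul] at this
          rw [h1, this, abs_neg]) σ
    simpa [hW'] using this
  have hle : qf2 g J J W' ≤ qf2 g J J W := by
    refine qf2_abs_le mixKer mixKer_orth g hg J J
      (fun x u s s' => elem_field_nonneg mixKer_orth mixKer_rowsum x u s s') ?_ W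
    intro x y u s s'
    by_cases hs : s = s'
    · exact Or.inr hs
    left
    by_cases hxy : x = y
    · rw [elem_bond_eq_zero mixKer_orth x y u s s' hs (Or.inl hxy), mul_zero]
    by_cases hx : u x = 0 <;> by_cases hy : u y = 0
    · rw [elem_bond_eq_zero mixKer_orth x y u s s' hs
        (Or.inr ⟨fun b c h0 => by simp [mixKer, h0], hx, hy⟩), mul_zero]
    · simp [zv, hx, hy]
    · simp [zv, hx, hy]
    · refine mul_nonneg ?_ (elem_bond_nonneg mixKer_orth x y hxy u s s'
        (fun a a' => by simpa [mixKer, hx] using hadKer_zv (u x) (u x) a a')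
        (fun a a' => by simpa [mixKer, hy] using hadKer_zv (u y) (u y) a a'))
      simp [zv, hx, hy]
      linarith [hJ x y]
  have hpv : ∀ σ τ, pairVec W σ τ = e σ * Ω τ + (-Ω σ) * e τ := by
    intro σ τ
    have : σ + (σ + τ) = τ := by funext x; simp [← add_assoc, fin2_add_self]
    simp [pairVec, hW, this]; ring
  have hcr : ip Ω (hmul g J e) = 0 := by
    rw [ip_hmul_symm]
    have : ip e (hmul g J Ω) = E * ip Ω e := by
      simp only [ip, Finset.mul_sum, heig]
      exact Finset.sum_congr rfl fun σ _ => by ring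
    rw [this, hperp, mul_zero]
  have hqΩ : qf g J Ω = E := by
    have : qf g J Ω = E * nsq Ω := by
      simp only [qf, ip, nsq, Finset.mul_sum, heig]
      exact Finset.sum_congr rfl fun σ _ => by ring
    rw [this, hn, mul_one]
  have e2 : ∀ σ, qf g J (pairVec W σ) = e σ * e σ * E + Ω σ * Ω σ * qf g J e := by
    intro σ
    rw [show pairVec W σ = fun τ => e σ * Ω τ + (-Ω σ) * e τ from funext (hpv σ), qf_lin, hqΩ, hcr]
    ring
  have hin : qf2 g J J W = 2 * (qf g J e + E * nsq e) := by
    rw [← qf_add_qf]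
    have e1 : ∀ τ, qf g J (fun σ => pairVec W σ τ) = qf g J (pairVec W τ) := by
      intro τ
      have : (fun σ => pairVec W σ τ) = fun σ => (-1) * pairVec W τ σ + 0 * Ω σ := by
        funext σ; simp only [hpv]; ring
      rw [this, qf_lin]; ring
    simp only [e1, e2, Finset.sum_add_distrib, ← Finset.sum_mul]
    change nsq e * E + nsq Ω * _ + (nsq e * E + nsq Ω * _) = _
    rw [hn]; ring
  have hnW : ∑ σ, nsq (pairVec W' σ) = 2 * nsq e := by
    rw [nsq_pairVec]
    have : ∀ u, nsq (W' u) = nsq (W u) := by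
      intro u
      rw [hW', nsq_bwd mixKer mixKer_orth]
      conv_rhs => rw [← bwd_fwd mixKer mixKer_orth W, nsq_bwd mixKer mixKer_orth, ← hT]
      simp [nsq, abs_mul_abs_self]
    simp only [this]
    rw [← nsq_pairVec]
    have : ∀ σ, nsq (pairVec W σ) = e σ * e σ + Ω σ * Ω σ * nsq e := by
      intro σ
      rw [show pairVec W σ = fun τ => e σ * Ω τ + (-Ω σ) * e τ from funext (hpv σ), nsq_lin, hn,
        hperp]
      ring
    simp only [this, Finset.sum_add_distrib, ← Finset.sum_mul]
    change nsq e + nsq Ω * _ = _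
    rw [hn]; ring
  have hout : (2 * E + Δ) * (2 * nsq e) ≤ qf2 g J J W' := by
    rw [← qf_add_qf, ← hnW]
    set P := pairVec W' with hP
    have hflip : ∀ σ τ, P (σ + allOne V) τ = -P σ (τ + allOne V) := by
      intro σ τ
      simp only [hP, pairVec]
      rw [add_right_comm σ (allOne V) τ, w2, ← add_assoc σ τ (allOne V)]
    have hodd : (∑ τ, nsq (oddPart fun σ => P σ τ)) + ∑ σ, nsq (oddPart (P σ))
        = ∑ σ, nsq (P σ) := by
      have hsh : ∑ σ, ∑ τ, P σ (τ + allOne V) * P σ (τ + allOne V) = ∑ σ, nsq (P σ) :=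
        Finset.sum_congr rfl fun σ _ =>
          Equiv.sum_comp (Equiv.addRight (allOne V)) (fun τ => P σ τ * P σ τ)
      have e : (∑ τ, nsq (oddPart fun σ => P σ τ)) + ∑ σ, nsq (oddPart (P σ))
          = ((∑ σ, nsq (P σ)) + ∑ σ, ∑ τ, P σ (τ + allOne V) * P σ (τ + allOne V)) / 2 := by
        simp only [nsq]
        rw [Finset.sum_comm]
        simp only [← Finset.sum_add_distrib, Finset.sum_div]
        refine Finset.sum_congr rfl fun σ _ => Finset.sum_congr rfl fun τ _ => ?_
        simp only [oddPart, hflip]; ring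
      rw [e, hsh]; ring
    have hc : ∑ τ, nsq (fun σ => P σ τ) = ∑ σ, nsq (P σ) := Finset.sum_comm
    have h1 := Finset.sum_le_sum (s := Finset.univ) fun τ _ => hslice (fun σ => P σ τ)
    have h2 := Finset.sum_le_sum (s := Finset.univ) fun σ _ => hslice (P σ)
    simp only [Finset.sum_add_distrib, ← Finset.mul_sum] at h1 h2
    rw [hc] at h1
    have h3 : Δ * (∑ τ, nsq (oddPart fun σ => P σ τ)) + Δ * ∑ σ, nsq (oddPart (P σ))
        = Δ * ∑ σ, nsq (P σ) := by rw [← mul_add, hodd]
    linarith
  linarith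

/-- Decreasing the couplings of a ferromagnetic transverse-field Ising Hamiltonian keeps the
ground state unique and does not decrease the gap below the given bound. -/
theorem gap_mono {g : V → ℝ} (hg : ∀ x, 0 ≤ g x) {J J' : V → V → ℝ}
    (hJ : ∀ x y, 0 ≤ J' x y ∧ J' x y ≤ J x y)
    {Ω : (V → Fin 2) → ℝ} {E Δ : ℝ} (h : GapR g J Ω E Δ) (hΔ : 0 < Δ) :
    ∃ Ω' E', GapR g J' Ω' E' Δ := by
  obtain ⟨u, E', hu, heig, hev, hmin⟩ := exists_even_ground g hg J'
  refine ⟨u, E', hu, heig, fun v => ?_⟩
  have hflipo : ∀ w : (V → Fin 2) → ℝ, ∀ σ, oddPart w (σ + allOne V) = -oddPart w σ := by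
    intro w σ; simp only [oddPart, add_add_self]; ring
  have split : ∀ w, qf g J' w = qf g J' (evenPart w) + qf g J' (oddPart w) := by
    intro w
    have h1 := qf_lin g J' 1 1 (evenPart w) (oddPart w)
    have h2 : ip (evenPart w) (hmul g J' (oddPart w)) = 0 := by
      have h3 : ∀ σ, hmul g J' (oddPart w) (σ + allOne V) = -hmul g J' (oddPart w) σ := by
        intro σ
        simp only [hmul, bondEn_flip, add_right_comm _ (allOne V), hflipo, mul_neg, neg_sub,
          Finset.sum_neg_distrib]
        ring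
      have : ip (evenPart w) (hmul g J' (oddPart w))
          = -ip (evenPart w) (hmul g J' (oddPart w)) := by
        simp only [ip]
        conv_lhs => rw [← Equiv.sum_comp (Equiv.addRight (allOne V))]
        rw [← Finset.sum_neg_distrib]
        refine Finset.sum_congr rfl fun σ _ => ?_
        simp only [Equiv.coe_addRight, h3, evenPart, add_add_self]
        ring
      linarith
    have e : (fun σ => 1 * evenPart w σ + 1 * oddPart w σ) = w := by
      funext σ; simp only [evenPart, oddPart]; ring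
    rw [e, h2] at h1
    rw [h1]; ring
  have hslice : ∀ w, E' * nsq w + Δ * nsq (oddPart w) ≤ qf g J' w := by
    intro w
    have h1 := odd_gap_mono hg hJ h hΔ hmin (oddPart w) (hflipo w)
    have h2 := hmin (evenPart w)
    have h3 : nsq w = nsq (evenPart w) + nsq (oddPart w) := by
      have h4 : ∑ σ : V → Fin 2, w (σ + allOne V) * w (σ + allOne V) = nsq w :=
        Equiv.sum_comp (Equiv.addRight (allOne V)) (fun σ => w σ * w σ)
      have e : nsq (evenPart w) + nsq (oddPart w)
          = (nsq w + ∑ σ : V → Fin 2, w (σ + allOne V) * w (σ + allOne V)) / 2 := by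
        simp only [nsq, ← Finset.sum_add_distrib, Finset.sum_div]
        exact Finset.sum_congr rfl fun σ _ => by simp only [evenPart, oddPart]; ring
      rw [e, h4]; ring
    rw [split w, h3]
    linarith
  set c := ip u v with hc
  set p : (V → Fin 2) → ℝ := fun σ => 1 * v σ + (-c) * u σ with hp
  have hup : ip u p = 0 := by
    have : ip u p = ip u v + (-c) * nsq u := by
      simp only [hp, ip, nsq, Finset.mul_sum, ← Finset.sum_add_distrib]
      exact Finset.sum_congr rfl fun σ _ => by ring
    rw [← hc] at this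
    rw [this, hu]; ring
  have hpe : ∀ σ, evenPart p (σ + allOne V) = evenPart p σ := by
    intro σ; simp only [evenPart, add_add_self]; ring
  have hperp : ip u (evenPart p) = 0 := by
    have : ∑ σ, u σ * p (σ + allOne V) = ∑ σ, u σ * p σ := by
      rw [← Equiv.sum_comp (Equiv.addRight (allOne V))]
      simp [add_add_self, hev]
    simp only [ip] at hup ⊢
    simp only [evenPart, mul_div_assoc', mul_add, ← Finset.sum_div, Finset.sum_add_distrib, this,
      hup, add_zero, zero_div]
  have h1 := even_gap_of_odd hg (fun x y => (hJ x y).1) hu heig hev hslice (evenPart p) hpe hperp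
  have h2 := odd_gap_mono hg hJ h hΔ hmin (oddPart p) (hflipo p)
  have h3 : nsq p = nsq (evenPart p) + nsq (oddPart p) := by
    have h4 : ∑ σ : V → Fin 2, p (σ + allOne V) * p (σ + allOne V) = nsq p :=
      Equiv.sum_comp (Equiv.addRight (allOne V)) (fun σ => p σ * p σ)
    have e : nsq (evenPart p) + nsq (oddPart p)
        = (nsq p + ∑ σ : V → Fin 2, p (σ + allOne V) * p (σ + allOne V)) / 2 := by
      simp only [nsq, ← Finset.sum_add_distrib, Finset.sum_div]
      exact Finset.sum_congr rfl fun σ _ => by simp only [evenPart, oddPart]; ring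
    rw [e, h4]; ring
  have h5 : nsq p = nsq v - c ^ 2 := by
    rw [hp, nsq_lin, hu]
    have : ip v u = c := by rw [hc]; exact Finset.sum_congr rfl fun σ _ => mul_comm _ _
    rw [this]; ring
  have hqu : qf g J' u = E' := by
    have : qf g J' u = E' * nsq u := by
      simp only [qf, ip, nsq, Finset.mul_sum, heig]
      exact Finset.sum_congr rfl fun σ _ => by ring
    rw [this, hu, mul_one]
  have h6 : qf g J' p = qf g J' v - c ^ 2 * E' := by
    rw [hp, qf_lin, hqu]
    have : ip v (hmul g J' u) = E' * c := by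
      rw [hc]
      simp only [ip, Finset.mul_sum, heig]
      exact Finset.sum_congr rfl fun σ _ => by ring
    rw [this]; ring
  have h7 := split p
  have h8 : (E' + Δ) * nsq p ≤ qf g J' p := by rw [h7, h3]; linarith
  rw [h5, h6] at h8
  linarith

end Vale.P356
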