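import Vale.Agent.P356.IsingDefs
import Vale.Agent.P356.GapMono

/-!
Passing between the complex Hamiltonian with arbitrary field signs and a balanced coupling
pattern, and the real ferromagnetic one.
-/

namespace Vale.P356

open Matrix Finset

variable {V : Type*} [Fintype V] [DecidableEq V]

lemma isingH_mulVec (g : V → ℝ) (Jc : V → V → ℝ) (v : Cfg V 2 → ℂ) (σ : Cfg V 2) :
    (isingH g Jc *ᵥ v) σ
      = -((bondEn Jc σ : ℂ) * v σ) - ∑ x, (g x : ℂ) * v (σ + flipVec x) := by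
  have h1 : ∀ x, (pauliX x *ᵥ v) σ = v (σ + flipVec x) := by
    intro x; simp [pauliX, flipVec, Matrix.mulVec, dotProduct]
  have h2 : ∀ x y, ((pauliZ x * pauliZ y) *ᵥ v) σ
      = ((zv (σ x) * zv (σ y) : ℝ) : ℂ) * v σ := by
    intro x y
    rw [pauliZ, pauliZ, Matrix.diagonal_mul_diagonal, Matrix.mulVec_diagonal]
    simp only [zv]
    push_cast
    split <;> split <;> simp
  simp only [isingH, Matrix.sub_mulVec, Matrix.neg_mulVec, Matrix.sum_mulVec, Matrix.smul_mulVec,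
    Pi.sub_apply, Pi.neg_apply, Finset.sum_apply, Pi.smul_apply, h1, h2, smul_eq_mul, bondEn]
  push_cast
  simp only [Finset.sum_mul, mul_assoc]
  ring

/-- The real part of a vector. -/
def reV (v : Cfg V 2 → ℂ) : Cfg V 2 → ℝ := fun σ => (v σ).re

/-- The imaginary part of a vector. -/
def imV (v : Cfg V 2 → ℂ) : Cfg V 2 → ℝ := fun σ => (v σ).im

lemma hmul_reV (g : V → ℝ) (Jc : V → V → ℝ) (v : Cfg V 2 → ℂ) (σ : Cfg V 2) :
    ((isingH g Jc *ᵥ v) σ).re = hmul g Jc (reV v) σ ∧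
    ((isingH g Jc *ᵥ v) σ).im = hmul g Jc (imV v) σ := by
  rw [isingH_mulVec]
  constructor <;> simp [hmul, reV, imV, Complex.re_sum, Complex.im_sum]

lemma sqn_re_im (v : Cfg V 2 → ℂ) : sqn v = nsq (reV v) + nsq (imV v) := by
  simp only [sqn, nsq, reV, imV, Complex.normSq_apply, Finset.sum_add_distrib]

lemma pair_isingH_re (g : V → ℝ) (Jc : V → V → ℝ) (v : Cfg V 2 → ℂ) :
    (pair v (isingH g Jc *ᵥ v)).re = qf g Jc (reV v) + qf g Jc (imV v) := by
  simp only [pair, qf, ip, Complex.re_sum, ← Finset.sum_add_distrib]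
  refine Finset.sum_congr rfl fun σ _ => ?_
  obtain ⟨h1, h2⟩ := hmul_reV g Jc v σ
  rw [← h1, ← h2]
  simp [reV, imV, Complex.mul_re]

lemma nsq_eq_zero {ι : Type*} [Fintype ι] {v : ι → ℝ} (h : nsq v = 0) : v = 0 := by
  funext i
  exact mul_self_eq_zero.1
    ((Finset.sum_eq_zero_iff_of_nonneg fun i _ => mul_self_nonneg (v i)).1 h i (Finset.mem_univ i))

lemma hasGap_of_gapR {g : V → ℝ} {Jc : V → V → ℝ} {Ω : Cfg V 2 → ℝ} {E Δ : ℝ}
    (h : GapR g Jc Ω E Δ) : HasGap (isingH g Jc) (fun σ => (Ω σ : ℂ)) Δ := by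
  obtain ⟨hn, heig, hgap⟩ := h
  refine ⟨?_, E, ?_, fun v => ?_⟩
  · simpa [sqn, nsq, Complex.normSq_ofReal] using hn
  · funext σ
    refine Complex.ext ?_ ?_
    · rw [(hmul_reV g Jc _ σ).1,
        show reV (fun τ => (Ω τ : ℂ)) = Ω from funext fun τ => Complex.ofReal_re _]
      simpa using heig σ
    · rw [(hmul_reV g Jc _ σ).2]; simp [imV, hmul]
  · have h1 := hgap (reV v)
    have h2 := hgap (imV v)
    have e : Complex.normSq (pair (fun σ => (Ω σ : ℂ)) v) = ip Ω (reV v) ^ 2 + ip Ω (imV v) ^ 2 := by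
      simp only [Complex.normSq_apply, pair, ip, reV, imV, Complex.re_sum, Complex.im_sum]
      simp [pow_two]
    rw [sqn_re_im, pair_isingH_re, e]
    linarith

lemma gapR_of_hasGap {g : V → ℝ} {Jc : V → V → ℝ} {Ω : Cfg V 2 → ℂ} {Δ : ℝ}
    (hΔ : 0 < Δ) (h : HasGap (isingH g Jc) Ω Δ) :
    ∃ w E, GapR g Jc w E Δ := by
  obtain ⟨hn, E, heig, hgap⟩ := h
  set a := reV Ω with ha
  set b := imV Ω with hb
  have hea : ∀ σ, hmul g Jc a σ = E * a σ := by
    intro σ
    rw [ha, ← (hmul_reV g Jc Ω σ).1, heig]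
    simp [reV]
  have heb : ∀ σ, hmul g Jc b σ = E * b σ := by
    intro σ
    rw [hb, ← (hmul_reV g Jc Ω σ).2, heig]
    simp [imV]
  rw [sqn_re_im, ← ha, ← hb] at hn
  have gr : ∀ v : Cfg V 2 → ℝ,
      Δ * (nsq v - (ip a v ^ 2 + ip b v ^ 2)) ≤ qf g Jc v - E * nsq v := by
    intro v
    have h1 := hgap (fun σ => (v σ : ℂ))
    have e1 : reV (fun σ => (v σ : ℂ)) = v := by funext σ; simp [reV]
    have e2 : imV (fun σ => (v σ : ℂ)) = 0 := by funext σ; simp [imV]
    have e3 : Complex.normSq (pair Ω fun σ => (v σ : ℂ)) = ip a v ^ 2 + ip b v ^ 2 := by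
      simp only [Complex.normSq_apply, pair, ip, ha, hb, reV, imV, Complex.re_sum, Complex.im_sum]
      simp [pow_two]
    rw [sqn_re_im, pair_isingH_re, e1, e2, e3] at h1
    simpa [nsq, qf, ip] using h1
  have fin : ∀ (c d : Cfg V 2 → ℝ), (∀ σ, hmul g Jc c σ = E * c σ) → 0 < nsq c →
      nsq c + nsq d = 1 → (∀ v, Δ * (nsq v - (ip c v ^ 2 + ip d v ^ 2)) ≤ qf g Jc v - E * nsq v) →
      ∃ w E, GapR g Jc w E Δ := by
    intro c d hec hc hcd hv
    have h0 := hv c
    have hq : qf g Jc c = E * nsq c := by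
      simp only [qf, ip, nsq, Finset.mul_sum, hec]
      exact Finset.sum_congr rfl fun σ _ => by ring
    have hs : ip d c = ip c d := Finset.sum_congr rfl fun σ _ => mul_comm _ _
    rw [hq, sub_self, show ip c c = nsq c from rfl, hs] at h0
    have h0' : nsq c - (nsq c ^ 2 + ip c d ^ 2) ≤ 0 := by
      by_contra hh; push Not at hh; nlinarith
    set k := ip c d / nsq c with hk
    have hz : nsq (fun σ => 1 * d σ + (-k) * c σ) = 0 := by
      refine le_antisymm ?_ (nsq_nonneg _)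
      rw [nsq_lin]
      have hs' : ip d c = k * nsq c := by rw [hs, hk, div_mul_cancel₀ _ hc.ne']
      have hs2 : ip c d = k * nsq c := by rw [← hs, hs']
      rw [hs2] at h0'
      rw [hs']
      nlinarith
    have hdk : d = fun σ => k * c σ := by
      funext σ
      have := congrFun (nsq_eq_zero hz) σ
      simp only [Pi.zero_apply] at this
      linarith
    have hnd : nsq d = k * k * nsq c := by
      rw [hdk]; simp only [nsq, Finset.mul_sum]
      exact Finset.sum_congr rfl fun σ _ => by ring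
    set r := (Real.sqrt (nsq c))⁻¹ with hr
    have hrr : r * r * nsq c = 1 := by
      rw [hr, ← mul_inv, Real.mul_self_sqrt hc.le, inv_mul_cancel₀ hc.ne']
    refine ⟨fun σ => r * c σ, E, ?_, fun σ => ?_, fun v => ?_⟩
    · rw [← hrr]; simp only [nsq, Finset.mul_sum]
      exact Finset.sum_congr rfl fun σ _ => by ring
    · have : hmul g Jc (fun σ => r * c σ) σ = r * hmul g Jc c σ := by
        simp only [hmul, mul_sub, Finset.mul_sum]
        congr 1
        · ring
        · exact Finset.sum_congr rfl fun x _ => by ring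
      rw [this, hec]; ring
    · have h1 := hv v
      have e1 : ip d v = k * ip c v := by
        rw [hdk]; simp only [ip, Finset.mul_sum]
        exact Finset.sum_congr rfl fun σ _ => by ring
      have e2 : ip (fun σ => r * c σ) v = r * ip c v := by
        simp only [ip, Finset.mul_sum]
        exact Finset.sum_congr rfl fun σ _ => by ring
      have e3 : r * r = 1 + k * k := by
        have : (1 + k * k) * nsq c = 1 := by rw [hnd] at hcd; linarith
        exact mul_right_cancel₀ hc.ne' (hrr.trans this.symm)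
      rw [e1] at h1
      rw [e2]
      calc Δ * (nsq v - (r * ip c v) ^ 2)
          = Δ * (nsq v - (ip c v ^ 2 + (k * ip c v) ^ 2)) := by
            rw [mul_pow, pow_two r, e3]; ring
        _ ≤ _ := h1
  rcases (nsq_nonneg a).eq_or_lt with h0 | h0
  · refine fin b a heb (by linarith) (by linarith) fun v => ?_
    rw [add_comm (ip b v ^ 2)]
    exact gr v
  · exact fin a b hea h0 hn gr

/-- Sign factor of the gauge transformation for the fields. -/
noncomputable def gaugeC (g : V → ℝ) (σ : Cfg V 2) : ℝ := ∏ x, if g x < 0 then zv (σ x) else 1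

omit [DecidableEq V] in
lemma gaugeC_sq (g : V → ℝ) (σ : Cfg V 2) : gaugeC g σ * gaugeC g σ = 1 := by
  rw [gaugeC, ← Finset.prod_mul_distrib]
  refine Finset.prod_eq_one fun x _ => ?_
  split
  · exact zv_sq _
  · ring

lemma gaugeC_flip (g : V → ℝ) (σ : Cfg V 2) (x : V) :
    |g x| * gaugeC g (σ + flipVec x) = g x * gaugeC g σ := by
  simp only [gaugeC]
  rw [← Finset.mul_prod_erase _ _ (Finset.mem_univ x),
    ← Finset.mul_prod_erase univ (fun y => if g y < 0 then zv (σ y) else 1) (Finset.mem_univ x)]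
  have : ∏ y ∈ univ.erase x, (if g y < 0 then zv ((σ + flipVec x) y) else 1)
      = ∏ y ∈ univ.erase x, (if g y < 0 then zv (σ y) else 1) := by
    refine Finset.prod_congr rfl fun y hy => ?_
    simp [flipVec, (Finset.mem_erase.1 hy).1]
  rw [this]
  by_cases h : g x < 0
  · rw [if_pos h, if_pos h, abs_of_neg h, Pi.add_apply, zv_add]
    rw [show zv (flipVec x x) = -1 by simp [flipVec, zv]]
    ring
  · rw [if_neg h, if_neg h, abs_of_nonneg (le_of_not_gt h)]

/-- Transport of a vector. -/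
noncomputable def gaugeV (g : V → ℝ) (s : Cfg V 2) (v : Cfg V 2 → ℝ) : Cfg V 2 → ℝ :=
  fun σ => gaugeC g σ * v (σ + s)

/-- Inverse transport of a vector. -/
noncomputable def gaugeW (g : V → ℝ) (s : Cfg V 2) (v : Cfg V 2 → ℝ) : Cfg V 2 → ℝ :=
  fun σ => gaugeC g (σ + s) * v (σ + s)

/-- Gauged couplings. -/
def gaugeJ (s : Cfg V 2) (Jc : V → V → ℝ) : V → V → ℝ :=
  fun x y => zv (s x) * zv (s y) * Jc x y

lemma gaugeV_gaugeW (g : V → ℝ) (s : Cfg V 2) (v : Cfg V 2 → ℝ) :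
    gaugeV g s (gaugeW g s v) = v := by
  funext σ
  simp [gaugeV, gaugeW, add_add_self, ← mul_assoc, gaugeC_sq]

lemma gaugeW_gaugeV (g : V → ℝ) (s : Cfg V 2) (v : Cfg V 2 → ℝ) :
    gaugeW g s (gaugeV g s v) = v := by
  funext σ
  simp [gaugeV, gaugeW, add_add_self, ← mul_assoc, gaugeC_sq]

lemma ip_gaugeV (g : V → ℝ) (s : Cfg V 2) (v w : Cfg V 2 → ℝ) :
    ip (gaugeV g s v) (gaugeV g s w) = ip v w := by
  simp only [ip]
  conv_rhs => rw [← Equiv.sum_comp (Equiv.addRight s)]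
  refine Finset.sum_congr rfl fun σ _ => ?_
  simp only [Equiv.coe_addRight, gaugeV]
  rw [mul_mul_mul_comm, gaugeC_sq, one_mul]

lemma hmul_gaugeV (g : V → ℝ) (s : Cfg V 2) (Jc : V → V → ℝ) (v : Cfg V 2 → ℝ) :
    hmul (fun x => |g x|) (gaugeJ s Jc) (gaugeV g s v) = gaugeV g s (hmul g Jc v) := by
  funext σ
  have hb : bondEn (gaugeJ s Jc) σ = bondEn Jc (σ + s) := by
    simp only [bondEn, gaugeJ, Pi.add_apply, zv_add]
    exact Finset.sum_congr rfl fun x _ => Finset.sum_congr rfl fun y _ => by ring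
  simp only [hmul, gaugeV, hb, mul_sub, Finset.mul_sum]
  congr 1
  · ring
  · refine Finset.sum_congr rfl fun x _ => ?_
    rw [← mul_assoc, gaugeC_flip, add_right_comm σ (flipVec x) s]
    ring

lemma gapR_gauge (g : V → ℝ) (s : Cfg V 2) (Jc : V → V → ℝ) {Ω : Cfg V 2 → ℝ} {E Δ : ℝ}
    (h : GapR g Jc Ω E Δ) :
    GapR (fun x => |g x|) (gaugeJ s Jc) (gaugeV g s Ω) E Δ := by
  obtain ⟨hn, heig, hgap⟩ := h
  refine ⟨?_, fun σ => ?_, fun v => ?_⟩
  · rw [show nsq (gaugeV g s Ω) = ip (gaugeV g s Ω) (gaugeV g s Ω) from rfl, ip_gaugeV]; exact hn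
  · rw [hmul_gaugeV]
    simp only [gaugeV, heig]; ring
  · rw [← gaugeV_gaugeW g s v, qf, hmul_gaugeV, ip_gaugeV, ip_gaugeV,
      show nsq (gaugeV g s (gaugeW g s v)) = ip _ _ from rfl, ip_gaugeV]
    exact hgap _

lemma gapR_ungauge (g : V → ℝ) (s : Cfg V 2) (Jc : V → V → ℝ) {Ω : Cfg V 2 → ℝ} {E Δ : ℝ}
    (h : GapR (fun x => |g x|) (gaugeJ s Jc) Ω E Δ) :
    GapR g Jc (gaugeW g s Ω) E Δ := by
  obtain ⟨hn, heig, hgap⟩ := h
  refine ⟨?_, fun σ => ?_, fun v => ?_⟩
  · rw [show nsq (gaugeW g s Ω) = ip _ _ from rfl, ← ip_gaugeV g s, gaugeV_gaugeW]; exact hn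
  · have h1 := hmul_gaugeV g s Jc (gaugeW g s Ω)
    rw [gaugeV_gaugeW] at h1
    have h2 := congrFun (congrArg (gaugeW g s) h1) σ
    rw [gaugeW_gaugeV] at h2
    rw [← h2]
    simp only [gaugeW, heig]; ring
  · have h1 := hgap (gaugeV g s v)
    rw [qf, hmul_gaugeV, ip_gaugeV, show nsq (gaugeV g s v) = ip _ _ from rfl, ip_gaugeV] at h1
    have e : ip Ω (gaugeV g s v) = ip (gaugeW g s Ω) v := by
      rw [← ip_gaugeV g s (gaugeW g s Ω) v, gaugeV_gaugeW]
    rw [e] at h1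
    exact h1

/-- For a ferromagnetic (after gauge) Ising Hamiltonian, scaling any couplings down keeps the
gap. -/
theorem hasGap_mono {g : V → ℝ} {Jc : V → V → ℝ} (hJ : Ferromagnetic Jc) (c : V → V → ℝ)
    (hc : ∀ x y, 0 ≤ c x y ∧ c x y ≤ 1) {Ω : Cfg V 2 → ℂ} {Δ : ℝ} (hΔ : 0 < Δ)
    (h : HasGap (isingH g Jc) Ω Δ) :
    ∃ Ω', HasGap (isingH g fun x y => c x y * Jc x y) Ω' Δ := by
  obtain ⟨w, E, hw⟩ := gapR_of_hasGap hΔ h
  obtain ⟨s, hs, hpos⟩ := hJ
  set t : Cfg V 2 := fun x => if s x = 1 then 0 else 1 with ht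
  have hzt : ∀ x, zv (t x) = s x := by
    intro x
    rcases hs x with h | h <;> simp [ht, zv, h]
    norm_num
  have hJ' : ∀ x y, 0 ≤ gaugeJ t (fun x y => c x y * Jc x y) x y ∧
      gaugeJ t (fun x y => c x y * Jc x y) x y ≤ gaugeJ t Jc x y := by
    intro x y
    simp only [gaugeJ, hzt]
    obtain ⟨h1, h2⟩ := hc x y
    have := hpos x y
    constructor <;> nlinarith
  obtain ⟨Ω', E', hΩ'⟩ := gap_mono (fun x => abs_nonneg (g x)) hJ' (gapR_gauge g t Jc hw) hΔ
  exact ⟨_, hasGap_of_gapR (gapR_ungauge g t _ hΩ')⟩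

end Vale.P356
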