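import Vale.Agent.P356.Vec

/-!
Definitions for P356, following the conventions of the problem file.

`Cfg V q` indexes the product basis of the tensor product of copies of `ℂ^q` over the sites in
`V`, so an operator is a matrix indexed by `Cfg V q` and a vector is a function on it.
-/

namespace Vale.P356

open Matrix Finset

/-- Product basis of `⊗_{x ∈ V} ℂ^q`. -/
abbrev Cfg (V : Type*) (q : ℕ) := V → Fin q

/-- The square lattice `{1, …, L}^2`. -/
abbrev Site (L : ℕ) := Fin L × Fin L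

/-- The `ℓ^1` distance. -/
def l1 {L : ℕ} (x y : Site L) : ℕ :=
  ((x.1 : ℤ) - (y.1 : ℤ)).natAbs + ((x.2 : ℤ) - (y.2 : ℤ)).natAbs

/-- The edge boundary: pairs with first member in `A`, second outside, at distance one. -/
def edgeBoundary {L : ℕ} (A : Finset (Site L)) : Finset (Site L × Site L) :=
  Finset.univ.filter fun e => e.1 ∈ A ∧ e.2 ∉ A ∧ l1 e.1 e.2 = 1

variable {V : Type*} [Fintype V] [DecidableEq V] {q : ℕ}

/-- `h` acts on the tensor factors in `X` and as the identity on the others. -/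
def SupportedOn (X : Finset V) (h : Matrix (Cfg V q) (Cfg V q) ℂ) : Prop :=
  (∀ σ τ, (∃ x, x ∉ X ∧ σ x ≠ τ x) → h σ τ = 0) ∧
  (∀ σ τ σ' τ', (∀ x ∈ X, σ x = σ' x ∧ τ x = τ' x) →
    (∀ x, x ∉ X → σ x = τ x ∧ σ' x = τ' x) → h σ τ = h σ' τ')

/-- The Hamiltonian with one term for each set of sites. -/
noncomputable def ham (h : Finset V → Matrix (Cfg V q) (Cfg V q) ℂ) :
    Matrix (Cfg V q) (Cfg V q) ℂ :=
  ∑ X : Finset V, h X

/-- An admissible family of terms on the square lattice: self-adjoint, local in nonempty sets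
of `ℓ^1` diameter at most `R`, of operator norm at most `J`. -/
structure Admissible {L : ℕ} (q R : ℕ) (J : ℝ)
    (h : Finset (Site L) → Matrix (Cfg (Site L) q) (Cfg (Site L) q) ℂ) : Prop where
  eq_zero : ∀ X, ¬ (X.Nonempty ∧ ∀ x ∈ X, ∀ y ∈ X, l1 x y ≤ R) → h X = 0
  hermitian : ∀ X, (h X).IsHermitian
  supported : ∀ X, SupportedOn X (h X)
  bounded : ∀ X, BoundedBy J (h X)

/-- `Ω` is the unit ground state of `H` and the gap above it is at least `Δ`; for `Δ > 0`
this says in particular that the lowest eigenvalue is simple. -/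
def HasGap (H : Matrix (Cfg V q) (Cfg V q) ℂ) (Ω : Cfg V q → ℂ) (Δ : ℝ) : Prop :=
  sqn Ω = 1 ∧ ∃ E : ℝ, H *ᵥ Ω = (E : ℂ) • Ω ∧
    ∀ v, Δ * (sqn v - Complex.normSq (pair Ω v)) ≤ (pair v (H *ᵥ v)).re - E * sqn v

/-- The configuration which is `a` on `A` and `c` outside. -/
def glue (A : Finset V) (a : {x // x ∈ A} → Fin q) (c : {x // x ∉ A} → Fin q) : Cfg V q :=
  fun x => if hx : x ∈ A then a ⟨x, hx⟩ else c ⟨x, hx⟩

/-- The reduced density matrix of the region `A`. -/
noncomputable def reducedState (A : Finset V) (Ω : Cfg V q → ℂ) :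
    Matrix ({x // x ∈ A} → Fin q) ({x // x ∈ A} → Fin q) ℂ :=
  fun a a' => ∑ c, Ω (glue A a c) * starRingEnd ℂ (Ω (glue A a' c))

lemma reducedState_isHermitian (A : Finset V) (Ω : Cfg V q → ℂ) :
    (reducedState A Ω).IsHermitian := by
  ext i j
  simp [reducedState, conjTranspose_apply, mul_comm]

/-- The eigenvalues of the reduced density matrix, with multiplicity. -/
noncomputable def schmidt (A : Finset V) (Ω : Cfg V q → ℂ) :
    ({x // x ∈ A} → Fin q) → ℝ :=
  (reducedState_isHermitian A Ω).eigenvalues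

/-- The entanglement entropy `-Tr ρ log ρ`. -/
noncomputable def entropy (A : Finset V) (Ω : Cfg V q → ℂ) : ℝ :=
  ∑ i, Real.negMulLog (schmidt A Ω i)

/-- The variance of `-log ρ` in the state `ρ`: `Tr ρ (log ρ)^2 - (Tr ρ log ρ)^2`. -/
noncomputable def modularVariance (A : Finset V) (Ω : Cfg V q → ℂ) : ℝ :=
  (∑ i, schmidt A Ω i * Real.log (schmidt A Ω i) ^ 2)
    - (∑ i, schmidt A Ω i * Real.log (schmidt A Ω i)) ^ 2

end Vale.P356
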