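import Vale.Agent.P356.Bipartite

/-! Finite increments of the entanglement entropy. -/

namespace Vale.P356

open Matrix Finset

variable {a b : Type*} [Fintype a] [Fintype b] [DecidableEq a] [DecidableEq b]

/-- Entanglement entropy of a vector on `a × b`. -/
noncomputable def bentropy (ψ : a × b → ℂ) : ℝ := ∑ i, Real.negMulLog (lam ψ i)

omit [DecidableEq b] in
lemma sum_sqn_rot (ψ φ : a × b → ℂ) : ∑ i, sqn (rot ψ φ i) = sqn φ := by
  have h : ∀ c, ∑ i, Complex.normSq (rot ψ φ i c) = ∑ k, Complex.normSq (φ (k, c)) := by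
    intro c
    have e : (fun i => rot ψ φ i c) = (eigU ψ)ᴴ *ᵥ (fun k => φ (k, c)) := by
      funext i; simp [rot, Matrix.mulVec, dotProduct, conjTranspose_apply]
    have hu : ((eigU ψ)ᴴ)ᴴ * (eigU ψ)ᴴ = 1 := by
      rw [conjTranspose_conjTranspose, eigU_mul_star]
    have h2 : (sqn ((eigU ψ)ᴴ *ᵥ (fun k => φ (k, c))) : ℂ) = (sqn (fun k => φ (k, c)) : ℂ) := by
      rw [← pair_self, pair_mulVec_right, Matrix.mulVec_mulVec, hu, Matrix.one_mulVec, pair_self]
    have h3 := Complex.ofReal_inj.1 h2
    rw [← e] at h3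
    exact h3
  simp only [sqn]
  rw [Finset.sum_comm, Fintype.sum_prod_type, Finset.sum_comm (s := Finset.univ)
    (f := fun k c => Complex.normSq (φ (k, c)))]
  exact Finset.sum_congr rfl fun c _ => h c

lemma klein (ψ φ : a × b → ℂ) (hψ : sqn ψ = 1) (hφ : sqn φ = 1) {η : ℝ} (hη : 0 < η) :
    bentropy φ ≤ (∑ j, sqn (rot ψ φ j) * -Real.log (lam ψ j + η))
      + (Fintype.card a : ℝ) * η := by
  set W : Matrix a a ℂ := (eigU ψ)ᴴ * eigU φ with hW
  have hrot : ∀ j, rot ψ φ j = ∑ i, W j i • rot φ φ i := by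
    intro j
    funext c
    simp only [rot, Finset.sum_apply, Pi.smul_apply, smul_eq_mul, hW, Matrix.mul_apply,
      conjTranspose_apply, RCLike.star_def, Finset.sum_mul]
    rw [Finset.sum_comm]
    refine Finset.sum_congr rfl fun k _ => ?_
    conv_lhs => rw [rot_reconstruct φ φ k c]
    rw [Finset.mul_sum]
    exact Finset.sum_congr rfl fun i _ => by simp only [rot, mul_assoc]
  have hsq : ∀ j, sqn (rot ψ φ j) = ∑ i, Complex.normSq (W j i) * lam φ i := by
    intro j
    have h : (sqn (rot ψ φ j) : ℂ) = ((∑ i, Complex.normSq (W j i) * lam φ i : ℝ) : ℂ) := by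
      rw [← pair_self, hrot]
      simp only [pair, Finset.sum_apply, Pi.smul_apply, smul_eq_mul, map_sum, map_mul,
        Finset.sum_mul, Finset.mul_sum]
      rw [Finset.sum_comm]
      conv_lhs => enter [2, i]; rw [Finset.sum_comm]
      have : ∀ i k, ∑ c, starRingEnd ℂ (W j i) * starRingEnd ℂ (rot φ φ i c)
          * (W j k * rot φ φ k c)
          = starRingEnd ℂ (W j i) * W j k * if i = k then (lam φ i : ℂ) else 0 := by
        intro i k
        rw [← rot_orth, pair, Finset.mul_sum]
        exact Finset.sum_congr rfl fun c _ => by ring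
      push_cast
      refine Finset.sum_congr rfl fun i _ => ?_
      rw [Finset.sum_eq_single i]
      · rw [this, if_pos rfl, ← Complex.normSq_eq_conj_mul_self]
      · intro k _ hk; rw [this, if_neg hk, mul_zero]
      · simp
    exact_mod_cast h
  have hWW : Wᴴ * W = 1 := by
    rw [hW, conjTranspose_mul, conjTranspose_conjTranspose]
    calc (eigU φ)ᴴ * eigU ψ * ((eigU ψ)ᴴ * eigU φ)
        = (eigU φ)ᴴ * (eigU ψ * (eigU ψ)ᴴ) * eigU φ := by simp only [Matrix.mul_assoc]
      _ = 1 := by rw [eigU_mul_star, Matrix.mul_one, eigU_star_mul]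
  have hWW' : W * Wᴴ = 1 := mul_eq_one_comm.1 hWW
  have hcol : ∀ i, ∑ j, Complex.normSq (W j i) = 1 := by
    intro i
    have h := congrFun (congrFun hWW i) i
    simp only [Matrix.mul_apply, conjTranspose_apply, Matrix.one_apply_eq, RCLike.star_def] at h
    have : ((∑ j, Complex.normSq (W j i) : ℝ) : ℂ) = 1 := by
      push_cast
      rw [← h]
      exact Finset.sum_congr rfl fun j _ => Complex.normSq_eq_conj_mul_self
    exact_mod_cast this
  have hrow : ∀ j, ∑ i, Complex.normSq (W j i) = 1 := by
    intro j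
    have h := congrFun (congrFun hWW' j) j
    simp only [Matrix.mul_apply, conjTranspose_apply, Matrix.one_apply_eq, RCLike.star_def] at h
    have : ((∑ i, Complex.normSq (W j i) : ℝ) : ℂ) = 1 := by
      push_cast
      rw [← h]
      exact Finset.sum_congr rfl fun i _ => by rw [Complex.normSq_eq_conj_mul_self, mul_comm]
    exact_mod_cast this
  have key : ∀ i j, Real.negMulLog (lam φ i)
      ≤ lam φ i * -Real.log (lam ψ j + η) + ((lam ψ j + η) - lam φ i) := by
    intro i j
    have hν : 0 < lam ψ j + η := add_pos_of_nonneg_of_pos (lam_nonneg ψ j) hη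
    rcases (lam_nonneg φ i).eq_or_lt with hi | hi
    · rw [← hi]; simp [hν.le]
    · have h := Real.log_le_sub_one_of_pos (div_pos hν hi)
      rw [Real.log_div hν.ne' hi.ne'] at h
      have h' := mul_le_mul_of_nonneg_left h hi.le
      have e : lam φ i * ((lam ψ j + η) / lam φ i - 1) = (lam ψ j + η) - lam φ i := by
        field_simp
      rw [e] at h'
      rw [Real.negMulLog]
      linarith
  calc bentropy φ = ∑ i, ∑ j, Complex.normSq (W j i) * Real.negMulLog (lam φ i) := by
        refine Finset.sum_congr rfl fun i _ => ?_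
        rw [← Finset.sum_mul, hcol, one_mul]
    _ ≤ ∑ i, ∑ j, Complex.normSq (W j i)
          * (lam φ i * -Real.log (lam ψ j + η) + ((lam ψ j + η) - lam φ i)) :=
        Finset.sum_le_sum fun i _ => Finset.sum_le_sum fun j _ =>
          mul_le_mul_of_nonneg_left (key i j) (Complex.normSq_nonneg _)
    _ = _ := by
        simp only [mul_add, mul_sub, Finset.sum_add_distrib, Finset.sum_sub_distrib]
        have t1 : ∑ i, ∑ j, Complex.normSq (W j i) * (lam φ i * -Real.log (lam ψ j + η))
            = ∑ j, sqn (rot ψ φ j) * -Real.log (lam ψ j + η) := by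
          rw [Finset.sum_comm]
          refine Finset.sum_congr rfl fun j _ => ?_
          rw [hsq, Finset.sum_mul]
          exact Finset.sum_congr rfl fun i _ => by ring
        have t2 : ∑ i, ∑ j, Complex.normSq (W j i) * lam φ i = 1 := by
          simp only [← Finset.sum_mul, hcol, one_mul, sum_lam, hφ]
        have t3 : ∑ i, ∑ j, Complex.normSq (W j i) * lam ψ j = 1 := by
          rw [Finset.sum_comm]
          simp only [← Finset.sum_mul, hrow, one_mul, sum_lam, hψ]
        have t4 : ∑ i, ∑ j, Complex.normSq (W j i) * η = (Fintype.card a : ℝ) * η := by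
          simp only [← Finset.sum_mul, hcol]
          simp
        rw [t1, t2, t3, t4]
        ring

lemma logLip_neg_log_add (ψ : a × b → ℂ) {η : ℝ} (hη : 0 < η) (t : ℝ) :
    LogLip ψ (fun i => -Real.log (lam ψ i + η) - t) := by
  intro i j
  beta_reduce
  generalize lam ψ i = p
  generalize lam ψ j = r
  intro hi hj
  have key : ∀ p r : ℝ, 0 < r → r ≤ p →
      |Real.log (p + η) - Real.log (r + η)| ≤ |Real.log p - Real.log r| := by
    intro p r hr hrp
    have hp : 0 < p := hr.trans_le hrp
    rw [abs_of_nonneg (sub_nonneg.2 (Real.log_le_log (by positivity) (by linarith))),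
      abs_of_nonneg (sub_nonneg.2 (Real.log_le_log hr hrp)),
      ← Real.log_div (by positivity) (by positivity), ← Real.log_div hp.ne' hr.ne']
    refine Real.log_le_log (by positivity) ?_
    rw [div_le_div_iff₀ (by positivity) hr]
    nlinarith
  have e : (-Real.log (p + η) - t) - (-Real.log (r + η) - t)
      = -(Real.log (p + η) - Real.log (r + η)) := by ring
  rw [e, abs_neg]
  rcases le_total r p with h | h
  · exact key p r hj h
  · rw [abs_sub_comm, abs_sub_comm (Real.log p)]; exact key r p hi h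

/-- Entropy increment between two unit vectors. -/
lemma bentropy_step (ψ φ : a × b → ℂ) (hψ : sqn ψ = 1) (hφ : sqn φ = 1) {η C : ℝ}
    (hη : 0 < η) (hη1 : η ≤ 1 / 2)
    (hC : ∀ g, LogLip ψ g → gvar ψ g ≤ C) :
    bentropy φ ≤ bentropy ψ + 2 * Real.sqrt C * Real.sqrt (sqn (φ - ψ))
      + 2 * |Real.log η| * sqn (φ - ψ) + (Fintype.card a : ℝ) * η := by
  set k : a → ℝ := fun i => -Real.log (lam ψ i + η) with hk
  set t : ℝ := ∑ i, lam ψ i * k i with ht
  set c : a → ℝ := fun i => k i - t with hc
  have hl : ∑ i, lam ψ i = 1 := by rw [sum_lam, hψ]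
  have hbase : t ≤ bentropy ψ := by
    refine Finset.sum_le_sum fun i _ => ?_
    rcases (lam_nonneg ψ i).eq_or_lt with h | h
    · simp [← h]
    · have hlog := Real.log_le_log h (show lam ψ i ≤ lam ψ i + η by linarith)
      simp only [hk, Real.negMulLog]
      nlinarith
  have hL : ∀ i, |k i| ≤ |Real.log η| := by
    intro i
    have h0 := lam_nonneg ψ i
    have h1 : lam ψ i ≤ 1 := hl ▸ Finset.single_le_sum (fun j _ => lam_nonneg ψ j) (mem_univ i)
    simp only [hk, abs_neg]
    have hη0 : Real.log η < 0 := Real.log_neg hη (by linarith)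
    rw [abs_of_neg hη0]
    refine abs_le.2 ⟨?_, ?_⟩
    · have := Real.log_le_log hη (show η ≤ lam ψ i + η by linarith)
      linarith
    · have hle := Real.log_le_log (show 0 < lam ψ i + η by linarith)
        (show lam ψ i + η ≤ η⁻¹ by
          have : (2 : ℝ) ≤ η⁻¹ := by
            rw [le_inv_comm₀ (by norm_num) hη]; linarith
          linarith)
      rwa [Real.log_inv] at hle
  have htL : |t| ≤ |Real.log η| := by
    refine (Finset.abs_sum_le_sum_abs _ _).trans ?_
    calc ∑ i, |lam ψ i * k i| ≤ ∑ i, lam ψ i * |Real.log η| := by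
          refine Finset.sum_le_sum fun i _ => ?_
          rw [abs_mul, abs_of_nonneg (lam_nonneg ψ i)]
          exact mul_le_mul_of_nonneg_left (hL i) (lam_nonneg ψ i)
      _ = _ := by rw [← Finset.sum_mul, hl, one_mul]
  have hcb : ∀ i, c i ≤ 2 * |Real.log η| := by
    intro i
    have := (abs_le.1 (hL i)).2
    have := (abs_le.1 htL).1
    simp only [hc]; linarith
  have hmean : ∑ i, lam ψ i * c i = 0 := by
    simp only [hc, mul_sub, Finset.sum_sub_distrib]
    rw [← Finset.sum_mul, hl]
    linarith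
  have hvar : ∑ i, lam ψ i * (c i * c i) ≤ C := by
    have h := hC c (by simpa only [hc, hk] using logLip_neg_log_add ψ hη t)
    rw [gvar, hmean] at h
    simpa [pow_two] using h
  set δ : a × b → ℂ := φ - ψ with hδ
  have hrd : ∀ i, rot ψ φ i = rot ψ ψ i + rot ψ δ i := by
    intro i; funext x
    simp [rot, hδ, mul_sub]
  have hsq : ∀ i, sqn (rot ψ φ i)
      = lam ψ i + 2 * (pair (rot ψ ψ i) (rot ψ δ i)).re + sqn (rot ψ δ i) := by
    intro i
    have h : (sqn (rot ψ φ i) : ℂ) = (lam ψ i : ℂ) + pair (rot ψ ψ i) (rot ψ δ i)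
        + starRingEnd ℂ (pair (rot ψ ψ i) (rot ψ δ i)) + (sqn (rot ψ δ i) : ℂ) := by
      rw [← pair_self, hrd, pair_add_left, pair_add_right, pair_add_right, conj_pair, pair_self,
        pair_self, ← lam_eq_sqn]
      ring
    have := congrArg Complex.re h
    simp only [Complex.add_re, Complex.ofReal_re, Complex.conj_re] at this
    linarith
  have hp : pair (fvec ψ c) δ = ∑ i, (c i : ℂ) * pair (rot ψ ψ i) (rot ψ δ i) := by
    simp only [pair, fvec, rot, Fintype.sum_prod_type, map_sum, map_mul, Complex.conj_ofReal,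
      Finset.sum_mul, Finset.mul_sum]
    rw [Finset.sum_comm]
    conv_lhs => enter [2, x]; rw [Finset.sum_comm]
    rw [Finset.sum_comm]
    refine Finset.sum_congr rfl fun i _ => Finset.sum_congr rfl fun x _ => ?_
    rw [Finset.sum_comm]
    conv_rhs => rw [Finset.sum_comm]
    refine Finset.sum_congr rfl fun k _ => Finset.sum_congr rfl fun l _ => ?_
    ring
  have main : ∑ j, sqn (rot ψ φ j) * k j
      ≤ t + 2 * Real.sqrt C * Real.sqrt (sqn δ) + 2 * |Real.log η| * sqn δ := by
    have e : ∑ j, sqn (rot ψ φ j) * k j = t + ∑ j, sqn (rot ψ φ j) * c j := by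
      simp only [hc, mul_sub, Finset.sum_sub_distrib, ← Finset.sum_mul, sum_sqn_rot, hφ]
      ring
    have e2 : ∑ j, sqn (rot ψ φ j) * c j
        = 2 * (pair (fvec ψ c) δ).re + ∑ j, sqn (rot ψ δ j) * c j := by
      calc ∑ j, sqn (rot ψ φ j) * c j = ∑ j, (lam ψ j * c j
            + 2 * (c j * (pair (rot ψ ψ j) (rot ψ δ j)).re) + sqn (rot ψ δ j) * c j) :=
            Finset.sum_congr rfl fun j _ => by rw [hsq]; ring
        _ = _ := by
            rw [Finset.sum_add_distrib, Finset.sum_add_distrib, hmean, hp, Complex.re_sum,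
              ← Finset.mul_sum]
            simp
    have b1 : (pair (fvec ψ c) δ).re ≤ Real.sqrt C * Real.sqrt (sqn δ) := by
      refine (Complex.re_le_norm _).trans ((norm_pair_le _ _).trans ?_)
      rw [sqn_fvec]
      exact mul_le_mul_of_nonneg_right (Real.sqrt_le_sqrt hvar) (Real.sqrt_nonneg _)
    have b2 : ∑ j, sqn (rot ψ δ j) * c j ≤ 2 * |Real.log η| * sqn δ := by
      calc ∑ j, sqn (rot ψ δ j) * c j ≤ ∑ j, sqn (rot ψ δ j) * (2 * |Real.log η|) :=
            Finset.sum_le_sum fun j _ => mul_le_mul_of_nonneg_left (hcb j) (sqn_nonneg _)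
        _ = _ := by rw [← Finset.sum_mul, sum_sqn_rot]; ring
    rw [e, e2]
    linarith
  have := klein ψ φ hψ hφ hη
  linarith

end Vale.P356
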