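import Vale.Agent.P356.Defs

/-! Transverse-field Ising Hamiltonians (spin 1/2) on a finite set of sites. -/

namespace Vale.P356

open Matrix Finset

variable {V : Type*} [Fintype V] [DecidableEq V]

/-- The Pauli matrix `σ^z` at site `x`. -/
noncomputable def pauliZ (x : V) : Matrix (Cfg V 2) (Cfg V 2) ℂ :=
  Matrix.diagonal fun σ => if σ x = 0 then 1 else -1

/-- The Pauli matrix `σ^x` at site `x`. -/
noncomputable def pauliX (x : V) : Matrix (Cfg V 2) (Cfg V 2) ℂ :=
  fun σ τ => if τ = σ + Pi.single x 1 then 1 else 0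

/-- `-∑_x g_x σ^x_x - ∑_{x,y} J_{xy} σ^z_x σ^z_y`, the last sum over ordered pairs. -/
noncomputable def isingH (g : V → ℝ) (Jc : V → V → ℝ) : Matrix (Cfg V 2) (Cfg V 2) ℂ :=
  -(∑ x, (g x : ℂ) • pauliX x) - ∑ x, ∑ y, (Jc x y : ℂ) • (pauliZ x * pauliZ y)

/-- The couplings are ferromagnetic after flipping the spins selected by some `±1` field. -/
def Ferromagnetic (Jc : V → V → ℝ) : Prop :=
  ∃ s : V → ℝ, (∀ x, s x = 1 ∨ s x = -1) ∧ ∀ x y, 0 ≤ s x * s y * Jc x y

end Vale.P356
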