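import Vale.Agent.P356.Terms

/-! The entropy bound along the path which switches off the couplings across a cut. -/

namespace Vale.P356

open Matrix Finset

variable {V : Type*} [Fintype V] [DecidableEq V]

/-- Couplings with those across the cut multiplied by `t`. -/
def pathJ (A : Finset V) (Jc : V → V → ℝ) (t : ℝ) : V → V → ℝ :=
  fun x y => (if (x ∈ A ↔ y ∈ A) then 1 else t) * Jc x y

lemma bondEn_pathJ (A : Finset V) (Jc : V → V → ℝ) (t t' : ℝ) (σ : Cfg V 2) :
    bondEn (pathJ A Jc t') σ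
      = bondEn (pathJ A Jc t) σ + (t' - t) * bondEn (crossJ A Jc) σ := by
  simp only [bondEn, Finset.mul_sum, ← Finset.sum_add_distrib]
  refine Finset.sum_congr rfl fun x _ => Finset.sum_congr rfl fun y _ => ?_
  simp only [pathJ, crossJ]
  split <;> ring

lemma crossWeight_pathJ_le (A : Finset V) (Jc : V → V → ℝ) {t : ℝ} (h0 : 0 ≤ t) (h1 : t ≤ 1) :
    crossWeight A (pathJ A Jc t) ≤ crossWeight A Jc := by
  refine Finset.sum_le_sum fun p hp => ?_
  simp only [crossPairs, Finset.mem_filter, Finset.mem_univ, true_and] at hp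
  simp only [pathJ, if_neg hp, abs_mul, abs_of_nonneg h0]
  exact mul_le_of_le_one_left (abs_nonneg _) h1

/-- Total crossing coupling at a site. -/
def incid (A : Finset V) (Jc : V → V → ℝ) (x : V) : ℝ :=
  ∑ y, (|crossJ A Jc x y| + |crossJ A Jc y x|)

lemma sum_abs_crossJ (A : Finset V) (Jc : V → V → ℝ) :
    ∑ x, ∑ y, |crossJ A Jc x y| = crossWeight A Jc := by
  rw [crossWeight, crossPairs, Finset.sum_filter, Fintype.sum_prod_type]
  refine Finset.sum_congr rfl fun x _ => Finset.sum_congr rfl fun y _ => ?_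
  simp only [crossJ]
  split <;> simp_all

lemma sum_incid (A : Finset V) (Jc : V → V → ℝ) :
    ∑ x, incid A Jc x = 2 * crossWeight A Jc := by
  simp only [incid, Finset.sum_add_distrib]
  rw [sum_abs_crossJ, Finset.sum_comm, sum_abs_crossJ]
  ring

lemma abs_zv_mul (a b : Fin 2) : |zv a * zv b| = 1 := by
  fin_cases a <;> fin_cases b <;> simp [zv]

lemma abs_bondEn_crossJ (A : Finset V) (Jc : V → V → ℝ) (σ : Cfg V 2) :
    |bondEn (crossJ A Jc) σ| ≤ crossWeight A Jc := by
  rw [← sum_abs_crossJ]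
  refine (Finset.abs_sum_le_sum_abs _ _).trans (Finset.sum_le_sum fun x _ => ?_)
  refine (Finset.abs_sum_le_sum_abs _ _).trans (Finset.sum_le_sum fun y _ => ?_)
  rw [abs_mul, abs_zv_mul, mul_one]

lemma abs_bondEn_sub (A : Finset V) (Jc : V → V → ℝ) (x : V) (σ : Cfg V 2) :
    |bondEn (crossJ A Jc) σ - bondEn (crossJ A Jc) (σ + flipVec x)| ≤ 2 * incid A Jc x := by
  have hterm : ∀ a b, |crossJ A Jc a b * (zv (σ a) * zv (σ b))
      - crossJ A Jc a b * (zv ((σ + flipVec x) a) * zv ((σ + flipVec x) b))|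
      ≤ 2 * ((if a = x then |crossJ A Jc a b| else 0) + (if b = x then |crossJ A Jc a b| else 0)) := by
    intro a b
    by_cases hab : a = x ∨ b = x
    · refine (abs_sub _ _).trans ?_
      rw [abs_mul (crossJ A Jc a b), abs_mul (crossJ A Jc a b), abs_zv_mul, abs_zv_mul]
      have := abs_nonneg (crossJ A Jc a b)
      rcases hab with h | h
      · rw [if_pos h]; split <;> linarith
      · rw [if_pos h]; split <;> linarith
    · push Not at hab
      simp [flipVec, hab.1, hab.2]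
  simp only [bondEn, ← Finset.sum_sub_distrib]
  refine (Finset.abs_sum_le_sum_abs _ _).trans ?_
  refine (Finset.sum_le_sum fun a _ => (Finset.abs_sum_le_sum_abs _ _).trans
    (Finset.sum_le_sum fun b _ => hterm a b)).trans (le_of_eq ?_)
  simp only [← Finset.mul_sum, Finset.sum_add_distrib, incid]
  congr 2
  · rw [Finset.sum_comm]; simp
  · simp

/-- Multiplication by the crossing energy. -/
noncomputable def mulF (A : Finset V) (Jc : V → V → ℝ) (v : Cfg V 2 → ℂ) : Cfg V 2 → ℂ :=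
  fun σ => (bondEn (crossJ A Jc) σ : ℂ) * v σ

lemma var_crossing_le (A : Finset V) {g : V → ℝ} {Jc Jt : V → V → ℝ} {ψ : Cfg V 2 → ℂ}
    {E Δ G c : ℝ} (hn : sqn ψ = 1) (heig : isingH g Jt *ᵥ ψ = (E : ℂ) • ψ)
    (hgap : ∀ v, Δ * (sqn v - Complex.normSq (pair ψ v))
      ≤ (pair v (isingH g Jt *ᵥ v)).re - E * sqn v)
    (hG : ∀ x, |g x| ≤ G) (hc : ∀ x, incid A Jc x ≤ c) (hG0 : 0 ≤ G) :
    Δ * (sqn (mulF A Jc ψ) - Complex.normSq (pair ψ (mulF A Jc ψ)))
      ≤ 4 * G * c * crossWeight A Jc := by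
  set F := bondEn (crossJ A Jc) with hF
  set r : Cfg V 2 → V → ℝ :=
    fun σ x => (starRingEnd ℂ (ψ σ) * ψ (σ + flipVec x)).re with hr
  refine (hgap (mulF A Jc ψ)).trans ?_
  have e1 : (pair (mulF A Jc ψ) (isingH g Jt *ᵥ mulF A Jc ψ)).re - E * sqn (mulF A Jc ψ)
      = ∑ x, g x * ∑ σ, F σ * (F σ - F (σ + flipVec x)) * r σ x := by
    have hE : ∀ σ, (E : ℂ) * ψ σ
        = -((bondEn Jt σ : ℂ) * ψ σ) - ∑ x, (g x : ℂ) * ψ (σ + flipVec x) := by
      intro σ; rw [← isingH_mulVec, heig]; rfl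
    have hc : ∀ σ, starRingEnd ℂ (mulF A Jc ψ σ) * (isingH g Jt *ᵥ mulF A Jc ψ) σ
        - (F σ : ℂ) * F σ * (starRingEnd ℂ (ψ σ) * ((E : ℂ) * ψ σ))
        = ∑ x, ((g x * (F σ * (F σ - F (σ + flipVec x))) : ℝ) : ℂ)
            * (starRingEnd ℂ (ψ σ) * ψ (σ + flipVec x)) := by
      intro σ
      rw [hE, isingH_mulVec]
      simp only [mulF, map_mul, Complex.conj_ofReal, ← hF, mul_sub, Finset.mul_sum]
      rw [sub_sub_sub_comm, ← Finset.sum_sub_distrib]
      have : (F σ : ℂ) * starRingEnd ℂ (ψ σ) * -((bondEn Jt σ : ℂ) * ((F σ : ℂ) * ψ σ))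
          - (F σ : ℂ) * F σ * (starRingEnd ℂ (ψ σ) * -((bondEn Jt σ : ℂ) * ψ σ)) = 0 := by ring
      rw [this, zero_sub, ← Finset.sum_neg_distrib]
      refine Finset.sum_congr rfl fun x _ => ?_
      push_cast
      ring
    have h2 := congrArg Complex.re (Finset.sum_congr rfl fun σ (_ : σ ∈ Finset.univ) => hc σ)
    simp only [Complex.re_sum, Complex.re_ofReal_mul, Complex.sub_re, Finset.sum_sub_distrib] at h2
    have e : ∀ σ, ((F σ : ℂ) * F σ * (starRingEnd ℂ (ψ σ) * ((E : ℂ) * ψ σ))).re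
        = E * Complex.normSq (mulF A Jc ψ σ) := by
      intro σ
      simp [mulF, ← hF, Complex.normSq_apply, Complex.mul_re, Complex.mul_im]
      ring
    simp only [e] at h2
    rw [pair, Complex.re_sum, sqn, Finset.mul_sum, h2, Finset.sum_comm]
    simp only [Finset.mul_sum, hr, mul_assoc]
  rw [e1]
  have key : ∀ x, |∑ σ, F σ * (F σ - F (σ + flipVec x)) * r σ x| ≤ 2 * incid A Jc x ^ 2 := by
    intro x
    have hsym : ∀ σ, r (σ + flipVec x) x = r σ x := by
      intro σ; simp [hr, add_add_self, Complex.mul_re]; ring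
    have e2 : 2 * ∑ σ, F σ * (F σ - F (σ + flipVec x)) * r σ x
        = ∑ σ, (F σ - F (σ + flipVec x)) ^ 2 * r σ x := by
      have : ∑ σ, F σ * (F σ - F (σ + flipVec x)) * r σ x
          = ∑ σ, F (σ + flipVec x) * (F (σ + flipVec x) - F σ) * r σ x := by
        rw [← Equiv.sum_comp (Equiv.addRight (flipVec x))]
        simp [add_add_self, hsym]
      calc 2 * ∑ σ, F σ * (F σ - F (σ + flipVec x)) * r σ x
          = (∑ σ, F σ * (F σ - F (σ + flipVec x)) * r σ x)
            + ∑ σ, F (σ + flipVec x) * (F (σ + flipVec x) - F σ) * r σ x := by rw [← this]; ring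
        _ = _ := by
            rw [← Finset.sum_add_distrib]
            exact Finset.sum_congr rfl fun σ _ => by ring
    have e3 : |∑ σ, (F σ - F (σ + flipVec x)) ^ 2 * r σ x| ≤ 4 * incid A Jc x ^ 2 := by
      refine (Finset.abs_sum_le_sum_abs _ _).trans ?_
      have hb : ∀ σ, |(F σ - F (σ + flipVec x)) ^ 2 * r σ x| ≤ 4 * incid A Jc x ^ 2
          * ((Complex.normSq (ψ σ) + Complex.normSq (ψ (σ + flipVec x))) / 2) := by
        intro σ
        rw [abs_mul, abs_pow]
        refine mul_le_mul ?_ ?_ (abs_nonneg _) (by positivity)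
        · calc |F σ - F (σ + flipVec x)| ^ 2 ≤ (2 * incid A Jc x) ^ 2 :=
              pow_le_pow_left₀ (abs_nonneg _) (abs_bondEn_sub A Jc x σ) 2
            _ = _ := by ring
        · have h := Complex.abs_re_le_norm (starRingEnd ℂ (ψ σ) * ψ (σ + flipVec x))
          rw [norm_mul, RCLike.norm_conj] at h
          rw [Complex.normSq_eq_norm_sq, Complex.normSq_eq_norm_sq]
          refine h.trans ?_
          nlinarith [sq_nonneg (‖ψ σ‖ - ‖ψ (σ + flipVec x)‖)]
      refine (Finset.sum_le_sum fun σ _ => hb σ).trans (le_of_eq ?_)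
      rw [← Finset.mul_sum, ← Finset.sum_div, Finset.sum_add_distrib]
      have : ∑ σ, Complex.normSq (ψ (σ + flipVec x)) = sqn ψ :=
        Equiv.sum_comp (Equiv.addRight (flipVec x)) (fun σ => Complex.normSq (ψ σ))
      rw [this]
      change 4 * _ * ((sqn ψ + sqn ψ) / 2) = _
      rw [hn]; ring
    rw [← e2, abs_mul, abs_two] at e3
    linarith
  calc ∑ x, g x * ∑ σ, F σ * (F σ - F (σ + flipVec x)) * r σ x
      ≤ ∑ x, G * (2 * (incid A Jc x * c)) := by
        refine Finset.sum_le_sum fun x _ => (le_abs_self _).trans ?_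
        rw [abs_mul]
        have h0 : 0 ≤ incid A Jc x :=
          Finset.sum_nonneg fun y _ => add_nonneg (abs_nonneg _) (abs_nonneg _)
        refine mul_le_mul (hG x) ((key x).trans ?_) (abs_nonneg _) hG0
        rw [pow_two]
        have := mul_le_mul_of_nonneg_left (hc x) h0
        linarith
    _ = _ := by rw [← Finset.mul_sum, ← Finset.mul_sum, ← Finset.sum_mul, sum_incid]; ring

lemma energy_ge {H : Matrix (Cfg V 2) (Cfg V 2) ℂ} {ψ v : Cfg V 2 → ℂ} {E Δ : ℝ} (hΔ : 0 ≤ Δ)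
    (hn : sqn ψ = 1)
    (hgap : ∀ v, Δ * (sqn v - Complex.normSq (pair ψ v)) ≤ (pair v (H *ᵥ v)).re - E * sqn v) :
    E * sqn v ≤ (pair v (H *ᵥ v)).re := by
  have h := normSq_pair_le ψ v
  rw [hn, one_mul] at h
  have := hgap v
  nlinarith

lemma reducedState_smul (A : Finset V) (w : ℂ) (hw : Complex.normSq w = 1) (Ω : Cfg V 2 → ℂ) :
    reducedState A (w • Ω) = reducedState A Ω := by
  funext a a'
  refine Finset.sum_congr rfl fun c _ => ?_
  simp only [Pi.smul_apply, smul_eq_mul, map_mul]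
  have : w * starRingEnd ℂ w = 1 := by rw [Complex.mul_conj, hw]; simp
  calc w * Ω (glue A a c) * (starRingEnd ℂ w * starRingEnd ℂ (Ω (glue A a' c)))
      = w * starRingEnd ℂ w * (Ω (glue A a c) * starRingEnd ℂ (Ω (glue A a' c))) := by ring
    _ = _ := by rw [this, one_mul]

lemma entropy_smul (A : Finset V) (w : ℂ) (hw : Complex.normSq w = 1) (Ω : Cfg V 2 → ℂ) :
    entropy A (w • Ω) = entropy A Ω := by
  have key : ∀ (M N : Matrix ({x // x ∈ A} → Fin 2) ({x // x ∈ A} → Fin 2) ℂ)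
      (hM : M.IsHermitian) (hN : N.IsHermitian), M = N →
      ∑ i, Real.negMulLog (hM.eigenvalues i) = ∑ i, Real.negMulLog (hN.eigenvalues i) := by
    intro M N hM hN h; subst h; rfl
  exact key _ _ _ _ (reducedState_smul A w hw Ω)

lemma entropy_eq_bentropy (A : Finset V) (Ω : Cfg V 2 → ℂ) :
    entropy A Ω = bentropy (cutVec A Ω) := rfl

/-- One step of the path: nearby ground states are close, with a rate given by the variance. -/
lemma state_step (A : Finset V) {g : V → ℝ} {Jc : V → V → ℝ} {t t' Δ σV : ℝ} (hΔ : 0 < Δ)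
    {ψ φ : Cfg V 2 → ℂ} (hψ : HasGap (isingH g (pathJ A Jc t)) ψ Δ)
    (hφ : HasGap (isingH g (pathJ A Jc t')) φ Δ)
    (hreal : (pair ψ φ).im = 0) (hpos : 0 ≤ (pair ψ φ).re) (hσ : 0 ≤ σV)
    (hvar : sqn (mulF A Jc ψ) - Complex.normSq (pair ψ (mulF A Jc ψ)) ≤ σV ^ 2)
    (hsmall : |t' - t| * (3 * crossWeight A Jc) ≤ Δ / 2) :
    sqn (φ - ψ) ≤ 8 * (|t' - t| * σV / Δ) ^ 2 := by
  obtain ⟨hn, E, heig, hgap⟩ := hψ
  obtain ⟨hn', E', heig', hgap'⟩ := hφ
  set W := crossWeight A Jc with hW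
  have hW0 : 0 ≤ W := Finset.sum_nonneg fun p _ => abs_nonneg _
  set ε := t' - t with hε
  set F := bondEn (crossJ A Jc) with hF
  have hH : ∀ v, isingH g (pathJ A Jc t') *ᵥ v
      = isingH g (pathJ A Jc t) *ᵥ v - (ε : ℂ) • mulF A Jc v := by
    intro v; funext σ
    rw [Pi.sub_apply, Pi.smul_apply, isingH_mulVec, isingH_mulVec, bondEn_pathJ A Jc t t' σ]
    simp only [mulF, smul_eq_mul, hε]
    push_cast
    ring
  have hFsq : ∀ v, sqn (mulF A Jc v) ≤ W ^ 2 * sqn v := by
    intro v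
    simp only [sqn, Finset.mul_sum]
    refine Finset.sum_le_sum fun σ _ => ?_
    rw [mulF, Complex.normSq_mul, Complex.normSq_ofReal]
    refine mul_le_mul_of_nonneg_right ?_ (Complex.normSq_nonneg _)
    rw [← pow_two]
    exact (sq_abs _).symm.le.trans (pow_le_pow_left₀ (abs_nonneg _) (abs_bondEn_crossJ A Jc σ) 2)
  have hFre : ∀ v, |(pair v (mulF A Jc v)).re| ≤ W * sqn v := by
    intro v
    refine (Complex.abs_re_le_norm _).trans ((norm_pair_le _ _).trans ?_)
    calc Real.sqrt (sqn v) * Real.sqrt (sqn (mulF A Jc v))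
        ≤ Real.sqrt (sqn v) * Real.sqrt (W ^ 2 * sqn v) :=
          mul_le_mul_of_nonneg_left (Real.sqrt_le_sqrt (hFsq v)) (Real.sqrt_nonneg _)
      _ = W * sqn v := by
          rw [Real.sqrt_mul (sq_nonneg W), Real.sqrt_sq hW0]
          rw [mul_left_comm, Real.mul_self_sqrt (sqn_nonneg v)]
  have hre : ∀ (r : ℝ) (u v : Cfg V 2 → ℂ), (pair u ((r : ℂ) • v)).re = r * (pair u v).re := by
    intro r u v; rw [pair_smul_right, Complex.re_ofReal_mul]
  have hE : |E' - E| ≤ |ε| * W := by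
    have h1 := energy_ge (v := φ) hΔ.le hn hgap
    have h2 := energy_ge (v := ψ) hΔ.le hn' hgap'
    rw [hn', mul_one] at h1
    rw [hn, mul_one] at h2
    have e1 : (pair φ (isingH g (pathJ A Jc t) *ᵥ φ)).re = E' + ε * (pair φ (mulF A Jc φ)).re := by
      have h := hH φ
      rw [heig'] at h
      have h' : isingH g (pathJ A Jc t) *ᵥ φ = (E' : ℂ) • φ + (ε : ℂ) • mulF A Jc φ := by
        rw [h, sub_add_cancel]
      rw [h', pair_add_right, Complex.add_re, hre, hre, pair_self, Complex.ofReal_re, hn', mul_one]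
    have e2 : (pair ψ (isingH g (pathJ A Jc t') *ᵥ ψ)).re = E - ε * (pair ψ (mulF A Jc ψ)).re := by
      rw [hH, heig, pair_sub_right, Complex.sub_re, hre, hre, pair_self, Complex.ofReal_re, hn,
        mul_one]
    have b1 := hFre φ
    have b2 := hFre ψ
    rw [hn', mul_one] at b1
    rw [hn, mul_one] at b2
    have c1 : |ε * (pair φ (mulF A Jc φ)).re| ≤ |ε| * W := by
      rw [abs_mul]; exact mul_le_mul_of_nonneg_left b1 (abs_nonneg _)
    have c2 : |ε * (pair ψ (mulF A Jc ψ)).re| ≤ |ε| * W := by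
      rw [abs_mul]; exact mul_le_mul_of_nonneg_left b2 (abs_nonneg _)
    rw [abs_le] at c1 c2
    exact abs_le.2 ⟨by linarith, by linarith⟩
  set c := (pair ψ φ).re with hc
  have hpc : pair ψ φ = (c : ℂ) := Complex.ext (by simp [hc]) (by simp [hreal])
  set v := φ - (c : ℂ) • ψ with hv
  have hperp : pair ψ v = 0 := by
    rw [hv, pair_sub_right, pair_smul_right, pair_self, hn, hpc]; simp
  have hperp' : pair v ψ = 0 := by rw [← conj_pair, hperp, map_zero]
  have hvφ : pair v φ = (sqn v : ℂ) := by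
    have h : φ = v + (c : ℂ) • ψ := by rw [hv, sub_add_cancel]
    conv_lhs => arg 2; rw [h]
    rw [pair_add_right, pair_smul_right, hperp', mul_zero, add_zero, pair_self]
  have hvn : sqn v = 1 - c ^ 2 := by
    have h : (sqn v : ℂ) = ((1 - c ^ 2 : ℝ) : ℂ) := by
      rw [← hvφ, hv, pair_sub_left, pair_smul_left, pair_self, hn', hpc, Complex.conj_ofReal]
      push_cast; ring
    exact_mod_cast h
  have hδ : sqn (φ - ψ) = 2 - 2 * c := by
    have h : (sqn (φ - ψ) : ℂ) = ((2 - 2 * c : ℝ) : ℂ) := by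
      rw [← pair_self, pair_sub_left, pair_sub_right, pair_sub_right, pair_self, pair_self, hn, hn',
        ← conj_pair ψ φ, hpc, Complex.conj_ofReal]
      push_cast; ring
    exact_mod_cast h
  set n := Real.sqrt (sqn v) with hn0
  have hδn : Real.sqrt (sqn (φ - ψ)) ≤ 2 * n := by
    have h1 : sqn (φ - ψ) ≤ 2 ^ 2 * sqn v := by
      rw [hδ, hvn]
      nlinarith [sqn_nonneg v, hvn]
    calc Real.sqrt (sqn (φ - ψ)) ≤ Real.sqrt (2 ^ 2 * sqn v) := Real.sqrt_le_sqrt h1
      _ = 2 * n := by rw [Real.sqrt_mul (by norm_num), Real.sqrt_sq (by norm_num)]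
  -- the matrix element of the perturbation
  set μ := pair ψ (mulF A Jc ψ) with hμ
  have hvF : ‖pair v (mulF A Jc φ)‖ ≤ n * (σV + 2 * W * n) := by
    set u := mulF A Jc ψ - μ • ψ with hu
    have hun : sqn u = sqn (mulF A Jc ψ) - Complex.normSq μ := by
      have h : (sqn u : ℂ) = ((sqn (mulF A Jc ψ) - Complex.normSq μ : ℝ) : ℂ) := by
        rw [← pair_self, hu, pair_sub_left, pair_sub_right, pair_sub_right, pair_smul_left,
          pair_smul_left, pair_smul_right, pair_smul_right, pair_self, pair_self, hn, ← hμ,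
          ← conj_pair ψ (mulF A Jc ψ), ← hμ]
        push_cast
        rw [Complex.normSq_eq_conj_mul_self]
        ring
      exact_mod_cast h
    have hsplit : mulF A Jc φ = u + μ • ψ + mulF A Jc (φ - ψ) := by
      rw [hu, sub_add_cancel]
      funext σ
      simp [mulF, mul_sub]
    rw [hsplit, pair_add_right, pair_add_right, pair_smul_right, hperp', mul_zero, add_zero]
    refine (norm_add_le _ _).trans ?_
    have h1 : ‖pair v u‖ ≤ n * σV := by
      refine (norm_pair_le _ _).trans (mul_le_mul_of_nonneg_left ?_ (Real.sqrt_nonneg _))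
      rw [Real.sqrt_le_iff]
      exact ⟨hσ, by rw [hun]; exact hvar⟩
    have h2 : ‖pair v (mulF A Jc (φ - ψ))‖ ≤ n * (2 * W * n) := by
      refine (norm_pair_le _ _).trans (mul_le_mul_of_nonneg_left ?_ (Real.sqrt_nonneg _))
      refine (Real.sqrt_le_sqrt (hFsq _)).trans ?_
      rw [Real.sqrt_mul (sq_nonneg W), Real.sqrt_sq hW0]
      calc W * Real.sqrt (sqn (φ - ψ)) ≤ W * (2 * n) := mul_le_mul_of_nonneg_left hδn hW0
        _ = _ := by ring
    linarith
  have hg := hgap v
  rw [hperp, map_zero, sub_zero] at hg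
  have hHv : isingH g (pathJ A Jc t) *ᵥ v
      = (E' : ℂ) • φ + (ε : ℂ) • mulF A Jc φ - ((c * E : ℝ) : ℂ) • ψ := by
    have h := hH φ
    rw [heig'] at h
    rw [h, sub_add_cancel, hv, Matrix.mulVec_sub, Matrix.mulVec_smul, heig, smul_smul]
    push_cast; rfl
  have e3 : (pair v (isingH g (pathJ A Jc t) *ᵥ v)).re
      = E' * sqn v + ε * (pair v (mulF A Jc φ)).re := by
    rw [hHv, pair_sub_right, pair_add_right, Complex.sub_re, Complex.add_re, hre, hre, hre, hvφ,
      hperp', Complex.ofReal_re, Complex.zero_re, mul_zero, sub_zero]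
  rw [e3] at hg
  have hsq : sqn v = n * n := (Real.mul_self_sqrt (sqn_nonneg v)).symm
  have c3 : |ε * (pair v (mulF A Jc φ)).re| ≤ |ε| * (n * (σV + 2 * W * n)) := by
    rw [abs_mul]
    exact mul_le_mul_of_nonneg_left ((Complex.abs_re_le_norm _).trans hvF) (abs_nonneg _)
  have c4 : (E' - E) * sqn v ≤ |ε| * W * sqn v :=
    mul_le_mul_of_nonneg_right ((le_abs_self _).trans hE) (sqn_nonneg v)
  have c5 : Δ * (n * n) ≤ |ε| * (3 * W) * (n * n) + |ε| * σV * n := by
    rw [← hsq]
    have := le_abs_self (ε * (pair v (mulF A Jc φ)).re)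
    rw [hsq] at c4 hg ⊢
    linarith
  have hn_le : n ≤ 2 * (|ε| * σV / Δ) := by
    rcases (Real.sqrt_nonneg (sqn v)).eq_or_lt with h | h
    · rw [hn0, ← h]; positivity
    · have h6 : Δ / 2 * (n * n) ≤ |ε| * σV * n := by
        have := mul_le_mul_of_nonneg_right hsmall (mul_self_nonneg n)
        linarith
      have h7 : Δ / 2 * n ≤ |ε| * σV := by
        have : (Δ / 2 * n) * n ≤ (|ε| * σV) * n := by linarith
        exact le_of_mul_le_mul_right this h
      rw [show 2 * (|ε| * σV / Δ) = (|ε| * σV) / (Δ / 2) by ring, le_div_iff₀ (by linarith)]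
      linarith
  calc sqn (φ - ψ) ≤ 2 * sqn v := by
        rw [hδ, hvn]
        nlinarith [sqn_nonneg v, hvn]
    _ ≤ 2 * ((2 * (|ε| * σV / Δ)) * (2 * (|ε| * σV / Δ))) := by
        rw [hsq]
        exact mul_le_mul_of_nonneg_left (mul_le_mul hn_le hn_le (Real.sqrt_nonneg _)
          (by positivity)) (by norm_num)
    _ = _ := by ring

/-- The area law for gapped ferromagnetic transverse-field Ising Hamiltonians on a finite graph:
the entropy is bounded by the total coupling across the cut. -/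
theorem entropy_le (A : Finset V) {g : V → ℝ} {Jc : V → V → ℝ} (hJ : Ferromagnetic Jc)
    {G c Δ : ℝ} (hΔ : 0 < Δ) (hG0 : 0 ≤ G) (hc0 : 0 ≤ c) (hG : ∀ x, |g x| ≤ G)
    (hc : ∀ x, incid A Jc x ≤ c) {Ω : Cfg V 2 → ℂ} (hgap : HasGap (isingH g Jc) Ω Δ) :
    entropy A Ω ≤ 512 * (G + c) * crossWeight A Jc / Δ ^ 2 := by
  have hJ1 : pathJ A Jc 1 = Jc := by funext x y; simp [pathJ]
  have hex : ∀ t : ℝ, ∃ ψ, (0 ≤ t → t ≤ 1 → HasGap (isingH g (pathJ A Jc t)) ψ Δ)
      ∧ (t = 1 → ψ = Ω) := by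
    intro t
    by_cases h1 : t = 1
    · exact ⟨Ω, fun _ _ => by rw [h1, hJ1]; exact hgap, fun _ => rfl⟩
    by_cases ht : 0 ≤ t ∧ t ≤ 1
    · obtain ⟨ψ, hψ⟩ := hasGap_mono hJ (fun x y => if (x ∈ A ↔ y ∈ A) then 1 else t)
        (fun x y => by split <;> [exact ⟨zero_le_one, le_rfl⟩; exact ht]) hΔ hgap
      exact ⟨ψ, fun _ _ => hψ, fun h => absurd h h1⟩
    · exact ⟨Ω, fun a b => absurd ⟨a, b⟩ ht, fun h => absurd h h1⟩
  choose Ψ hΨ hΨ1 using hex
  set W := crossWeight A Jc with hW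
  have hW0 : 0 ≤ W := Finset.sum_nonneg fun p _ => abs_nonneg _
  set σ2 := 4 * G * c * W / Δ with hσ2
  have hσ0 : 0 ≤ σ2 := by positivity
  set D := (Fintype.card (In A 2) : ℝ) with hD
  have hDn : 0 ≤ D := Nat.cast_nonneg _
  set K := 64 * σ2 / Δ ^ 2 + D with hK
  have hK0 : 0 ≤ K := by positivity
  refine le_of_forall_pos_le_add fun e he => ?_
  obtain ⟨m, hm⟩ := exists_nat_ge (max (max 2 (6 * W / Δ)) ((K / e) ^ 2))
  have hm2 : (2 : ℝ) ≤ m := le_trans (le_max_left _ _) (le_trans (le_max_left _ _) hm)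
  have hmW : 6 * W / Δ ≤ m := le_trans (le_max_right _ _) (le_trans (le_max_left _ _) hm)
  have hmK : (K / e) ^ 2 ≤ m := le_trans (le_max_right _ _) hm
  have hm0 : (0 : ℝ) < m := by linarith
  set η : ℝ := ((m : ℝ) ^ 2)⁻¹ with hη
  have hη0 : 0 < η := by positivity
  have hη1 : η ≤ 1 / 2 := by
    rw [hη, one_div]; exact inv_anti₀ (by norm_num) (by nlinarith)
  have hlog : |Real.log η| ≤ 4 * Real.sqrt m := by
    have h1 : Real.log η = -(4 * Real.log (Real.sqrt m)) := by
      rw [hη, Real.log_inv, Real.log_pow, Real.log_sqrt hm0.le]; push_cast; ring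
    have h2 : 0 ≤ Real.log (Real.sqrt m) :=
      Real.log_nonneg (by rw [Real.one_le_sqrt]; linarith)
    rw [h1, abs_neg, abs_of_nonneg (by positivity)]
    have := Real.log_le_sub_one_of_pos (Real.sqrt_pos.2 hm0)
    linarith
  set B := 512 * (G + c) * W / Δ ^ 2 with hB
  set step := B / m + (2 * (4 * Real.sqrt m) * (8 * σ2 / Δ ^ 2) / (m : ℝ) ^ 2 + D * η) with hstep
  have key : ∀ k : ℕ, k ≤ m → entropy A (Ψ ((k : ℝ) / m)) ≤ k * step := by
    intro k
    induction k with
    | zero =>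
      intro _
      have h := hΨ 0 le_rfl zero_le_one
      rw [Nat.cast_zero, zero_div, zero_mul, entropy_eq_bentropy,
        bentropy_eq_zero_of_decoupled A (fun x y hxy => by simp [pathJ, hxy]) hΔ h]
    | succ k ih =>
      intro hk
      have hk' : k ≤ m := Nat.le_of_succ_le hk
      set t := (k : ℝ) / m with ht
      set t' := ((k + 1 : ℕ) : ℝ) / m with ht'
      have htt : t' - t = (m : ℝ)⁻¹ := by rw [ht, ht']; push_cast; field_simp; ring
      have h01 : ∀ j : ℕ, j ≤ m → 0 ≤ (j : ℝ) / m ∧ (j : ℝ) / m ≤ 1 := fun j hj =>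
        ⟨by positivity, by rw [div_le_one hm0]; exact_mod_cast hj⟩
      have hψ := hΨ t (h01 k hk').1 (h01 k hk').2
      have hφ0 := hΨ t' (h01 _ hk).1 (h01 _ hk).2
      -- choose the phase
      obtain ⟨w, hw, hwre, hwim⟩ : ∃ w : ℂ, Complex.normSq w = 1
          ∧ 0 ≤ (w * pair (Ψ t) (Ψ t')).re ∧ (w * pair (Ψ t) (Ψ t')).im = 0 := by
        set z := pair (Ψ t) (Ψ t')
        by_cases hz : z = 0
        · exact ⟨1, by simp, by simp [hz], by simp [hz]⟩
        · refine ⟨starRingEnd ℂ z / (‖z‖ : ℂ), ?_, ?_, ?_⟩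
          · rw [Complex.normSq_div, Complex.normSq_conj, Complex.normSq_ofReal,
              Complex.normSq_eq_norm_sq, ← pow_two]
            exact div_self (pow_ne_zero 2 (norm_ne_zero_iff.2 hz))
          · rw [div_mul_eq_mul_div, ← Complex.normSq_eq_conj_mul_self, Complex.div_ofReal_re,
              Complex.ofReal_re]
            exact div_nonneg (Complex.normSq_nonneg z) (norm_nonneg z)
          · rw [div_mul_eq_mul_div, ← Complex.normSq_eq_conj_mul_self, Complex.div_ofReal_im,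
              Complex.ofReal_im, zero_div]
      have hφ : HasGap (isingH g (pathJ A Jc t')) (w • Ψ t') Δ := by
        obtain ⟨a, E, b, d⟩ := hφ0
        refine ⟨by rw [sqn_smul, hw, a, one_mul], E, ?_, fun v => ?_⟩
        · rw [Matrix.mulVec_smul, b, smul_comm]
        · rw [pair_smul_left, Complex.normSq_mul, Complex.normSq_conj, hw, one_mul]; exact d v
      have hvar : sqn (mulF A Jc (Ψ t)) - Complex.normSq (pair (Ψ t) (mulF A Jc (Ψ t))) ≤ σ2 := by
        obtain ⟨a, E, b, d⟩ := hψ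
        rw [hσ2, le_div_iff₀ hΔ, mul_comm]
        exact var_crossing_le A a b d hG hc hG0
      have hstep' := state_step A (σV := Real.sqrt σ2) hΔ hψ hφ
        (by rw [pair_smul_right]; exact hwim) (by rw [pair_smul_right]; exact hwre)
        (Real.sqrt_nonneg _) (by rw [Real.sq_sqrt hσ0]; exact hvar)
        (by
          rw [htt, abs_inv, abs_of_pos hm0, ← hW, inv_mul_le_iff₀ hm0]
          rw [div_le_iff₀ hΔ] at hmW
          linarith)
      rw [htt, abs_inv, abs_of_pos hm0] at hstep'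
      have hC : ∀ f, LogLip (cutVec A (Ψ t)) f → gvar (cutVec A (Ψ t)) f ≤ 256 * W / Δ := by
        intro f hf
        rw [le_div_iff₀ hΔ, mul_comm]
        exact (gap_mul_gvar_ising A hψ hf).trans
          (mul_le_mul_of_nonneg_left (crossWeight_pathJ_le A Jc (h01 k hk').1 (h01 k hk').2)
            (by norm_num))
      have hb := bentropy_step (cutVec A (Ψ t)) (cutVec A (w • Ψ t'))
        (by rw [sqn_cutVec]; exact hψ.1) (by rw [sqn_cutVec]; exact hφ.1) hη0 hη1 hC
      rw [show cutVec A (w • Ψ t') - cutVec A (Ψ t) = cutVec A (w • Ψ t' - Ψ t) from rfl,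
        sqn_cutVec, ← entropy_eq_bentropy, ← entropy_eq_bentropy, entropy_smul A w hw] at hb
      have p1 : 2 * Real.sqrt (256 * W / Δ) * Real.sqrt (sqn (w • Ψ t' - Ψ t)) ≤ B / m := by
        have h1 : Real.sqrt (256 * W / Δ) * Real.sqrt (sqn (w • Ψ t' - Ψ t))
            ≤ 256 * (G + c) * W / Δ ^ 2 / m := by
          rw [← Real.sqrt_mul (by positivity), Real.sqrt_le_iff]
          refine ⟨by positivity, ?_⟩
          calc 256 * W / Δ * sqn (w • Ψ t' - Ψ t)
              ≤ 256 * W / Δ * (8 * ((m : ℝ)⁻¹ * Real.sqrt σ2 / Δ) ^ 2) :=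
                mul_le_mul_of_nonneg_left hstep' (by positivity)
            _ = (2048 * 4 * (G * c)) * (W / Δ ^ 2 / m) ^ 2 := by
                rw [div_pow, mul_pow, Real.sq_sqrt hσ0, hσ2]
                field_simp
                ring
            _ ≤ (256 * (G + c)) ^ 2 * (W / Δ ^ 2 / m) ^ 2 := by
                refine mul_le_mul_of_nonneg_right ?_ (sq_nonneg _)
                nlinarith [sq_nonneg (G - c), sq_nonneg (G + c)]
            _ = _ := by ring
        calc 2 * Real.sqrt (256 * W / Δ) * Real.sqrt (sqn (w • Ψ t' - Ψ t))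
            ≤ 2 * (256 * (G + c) * W / Δ ^ 2 / m) := by linarith
          _ = B / m := by rw [hB]; ring
      have p2 : 2 * |Real.log η| * sqn (w • Ψ t' - Ψ t)
          ≤ 2 * (4 * Real.sqrt m) * (8 * σ2 / Δ ^ 2) / (m : ℝ) ^ 2 := by
        calc 2 * |Real.log η| * sqn (w • Ψ t' - Ψ t)
            ≤ 2 * (4 * Real.sqrt m) * (8 * ((m : ℝ)⁻¹ * Real.sqrt σ2 / Δ) ^ 2) :=
              mul_le_mul (by linarith) hstep' (sqn_nonneg _) (by positivity)
          _ = _ := by
              rw [div_pow, mul_pow, Real.sq_sqrt hσ0]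
              ring
      have ih' := ih hk'
      push_cast
      rw [add_mul, one_mul]
      have : entropy A (Ψ t') ≤ entropy A (Ψ t) + step := by
        rw [hstep]
        linarith
      linarith
  have hfin := key m le_rfl
  rw [div_self hm0.ne', hΨ1 1 rfl] at hfin
  have e1 : (m : ℝ) * step = B + (64 * σ2 / Δ ^ 2 * Real.sqrt m + D) / m := by
    rw [hstep, hη]
    field_simp
    ring
  have e2 : (64 * σ2 / Δ ^ 2 * Real.sqrt m + D) / m ≤ e := by
    have hs1 : 1 ≤ Real.sqrt m := by rw [Real.one_le_sqrt]; linarith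
    have hs : Real.sqrt m * Real.sqrt m = m := Real.mul_self_sqrt hm0.le
    have h1 : 64 * σ2 / Δ ^ 2 * Real.sqrt m + D ≤ K * Real.sqrt m := by
      rw [hK, add_mul]
      linarith [le_mul_of_one_le_right hDn hs1]
    have h2 : K / e ≤ Real.sqrt m := Real.le_sqrt_of_sq_le hmK
    rw [div_le_iff₀ hm0]
    rw [div_le_iff₀ he] at h2
    have h3 := mul_le_mul_of_nonneg_right h2 (Real.sqrt_nonneg (m : ℝ))
    calc 64 * σ2 / Δ ^ 2 * Real.sqrt m + D ≤ K * Real.sqrt m := h1
      _ ≤ Real.sqrt m * e * Real.sqrt m := h3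
      _ = e * m := by rw [mul_right_comm, hs, mul_comm]
  linarith

end Vale.P356
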