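import Vale.Agent.P356.Lattice
import Vale.Agent.P356.Path

/-! Finite-range Ising Hamiltonians on the square lattice. -/

namespace Vale.P356

open Matrix Finset

variable {L : ℕ}

/-- The term attached to a set of sites. -/
noncomputable def isingTerm (g : Site L → ℝ) (Jc : Site L → Site L → ℝ) (X : Finset (Site L)) :
    Matrix (Cfg (Site L) 2) (Cfg (Site L) 2) ℂ :=
  (∑ x, if ({x} : Finset (Site L)) = X then ((-g x : ℝ) : ℂ) • pauliX x else 0)
    + ∑ p : Site L × Site L,
      if ({p.1, p.2} : Finset (Site L)) = X then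
        ((-Jc p.1 p.2 : ℝ) : ℂ) • (pauliZ p.1 * pauliZ p.2) else 0

lemma ham_isingTerm (g : Site L → ℝ) (Jc : Site L → Site L → ℝ) :
    ham (isingTerm g Jc) = isingH g Jc := by
  rw [isingH_eq_sum, ham]
  simp only [isingTerm, Finset.sum_add_distrib]
  congr 1 <;> rw [Finset.sum_comm] <;> simp

lemma supportedOn_sum {V : Type*} [Fintype V] [DecidableEq V] {q : ℕ} {τ : Type*} (s : Finset τ)
    (X : Finset V) (K : τ → Matrix (Cfg V q) (Cfg V q) ℂ) (h : ∀ t ∈ s, SupportedOn X (K t)) :
    SupportedOn X (∑ t ∈ s, K t) := by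
  classical
  induction s using Finset.induction_on with
  | empty => simpa using supportedOn_zero X
  | insert t s ht ih =>
    rw [Finset.sum_insert ht]
    exact (h t (Finset.mem_insert_self t s)).add (ih fun u hu => h u (Finset.mem_insert_of_mem hu))

lemma pair_eq_pair {α : Type*} [DecidableEq α] {a b x y : α} (hxy : x ≠ y)
    (h : ({a, b} : Finset α) = {x, y}) : (a = x ∧ b = y) ∨ (a = y ∧ b = x) := by
  have ha : a ∈ ({x, y} : Finset α) := h ▸ Finset.mem_insert_self a {b}
  have hb : b ∈ ({x, y} : Finset α) := h ▸ Finset.mem_insert_of_mem (Finset.mem_singleton_self b)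
  have hx : x ∈ ({a, b} : Finset α) := h.symm ▸ Finset.mem_insert_self x {y}
  have hy : y ∈ ({a, b} : Finset α) := h.symm ▸ Finset.mem_insert_of_mem (Finset.mem_singleton_self y)
  simp only [Finset.mem_insert, Finset.mem_singleton] at ha hb hx hy
  grind

lemma isingTerm_admissible {R : ℕ} {J : ℝ} (hJ : 0 < J) {g : Site L → ℝ}
    {Jc : Site L → Site L → ℝ} (hg : ∀ x, |g x| ≤ J) (hJc : ∀ x y, |Jc x y| ≤ J / 2)
    (hrange : ∀ x y, Jc x y ≠ 0 → 1 ≤ l1 x y ∧ l1 x y ≤ R) :
    Admissible 2 R J (isingTerm g Jc) := by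
  have hdiag : ∀ x, Jc x x = 0 := by
    intro x
    by_contra h
    have := (hrange x x h).1
    simp [l1_self] at this
  refine ⟨fun X hX => ?_, fun X => ?_, fun X => ?_, fun X => ?_⟩
  · rw [isingTerm, Finset.sum_eq_zero, Finset.sum_eq_zero, add_zero]
    · intro p _
      rw [ite_eq_right_iff]
      intro hp
      by_cases h0 : Jc p.1 p.2 = 0
      · simp [h0]
      · refine absurd ⟨⟨p.1, by simp [← hp]⟩, fun x hx y hy => ?_⟩ hX
        subst hp
        simp only [Finset.mem_insert, Finset.mem_singleton] at hx hy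
        obtain ⟨-, h2⟩ := hrange _ _ h0
        rcases hx with rfl | rfl <;> rcases hy with rfl | rfl <;>
          first | (rw [l1_self]; exact Nat.zero_le _) | exact h2 | (rw [l1_comm]; exact h2)
    · intro x _
      rw [ite_eq_right_iff]
      intro hp
      refine absurd ⟨⟨x, by simp [← hp]⟩, fun a ha b hb => ?_⟩ hX
      subst hp
      simp only [Finset.mem_singleton] at ha hb
      subst ha; subst hb
      rw [l1_self]; exact Nat.zero_le _
  · unfold Matrix.IsHermitian isingTerm
    simp only [conjTranspose_add, conjTranspose_sum, apply_ite Matrix.conjTranspose,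
      conjTranspose_zero, conjTranspose_smul, (pauliX_isHermitian _).eq,
      (pauliZZ_isHermitian _ _).eq, RCLike.star_def, Complex.conj_ofReal]
  · refine SupportedOn.add (supportedOn_sum _ _ _ fun x _ => ?_)
      (supportedOn_sum _ _ _ fun p _ => ?_)
    · split
      · next h => exact h ▸ (pauliX_supported x).smul _
      · exact supportedOn_zero X
    · split
      · next h => exact h ▸ (pauliZZ_supported p.1 p.2).smul _
      · exact supportedOn_zero X
  · by_cases h1 : ∃ x, X = {x}
    · obtain ⟨x, rfl⟩ := h1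
      rw [isingTerm, Finset.sum_eq_single x, if_pos rfl, Finset.sum_eq_zero, add_zero]
      · have h := (pauliX_boundedBy x).smul (-g x)
        refine h.mono (by positivity) ?_
        simpa using hg x
      · intro p _
        rw [ite_eq_right_iff]
        intro hp
        have h1 : p.1 = x := Finset.mem_singleton.1 (hp ▸ Finset.mem_insert_self _ _)
        have h2 : p.2 = x := Finset.mem_singleton.1
          (hp ▸ Finset.mem_insert_of_mem (Finset.mem_singleton_self _))
        rw [h1, h2, hdiag]; simp
      · intro z _ hz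
        exact if_neg fun h => hz (Finset.singleton_injective h)
      · simp
    have hsing : (∑ x, if ({x} : Finset (Site L)) = X then ((-g x : ℝ) : ℂ) • pauliX x else 0) = 0 :=
      Finset.sum_eq_zero fun x _ => if_neg fun h => h1 ⟨x, h.symm⟩
    rw [isingTerm, hsing, zero_add]
    by_cases h2 : ∃ x y, x ≠ y ∧ X = {x, y}
    · obtain ⟨x, y, hxy, rfl⟩ := h2
      rw [← Finset.sum_subset (Finset.subset_univ ({(x, y), (y, x)} : Finset (Site L × Site L)))]
      · have hne : (x, y) ≠ (y, x) := fun h => hxy (congrArg Prod.fst h)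
        rw [Finset.sum_pair hne, if_pos rfl, if_pos (Finset.pair_comm y x)]
        have b1 := ((pauliZZ_boundedBy x y).smul (-Jc x y)).mono (by positivity)
          (show |(-Jc x y)| * 1 ≤ J / 2 by simpa using hJc x y)
        have b2 := ((pauliZZ_boundedBy y x).smul (-Jc y x)).mono (by positivity)
          (show |(-Jc y x)| * 1 ≤ J / 2 by simpa using hJc y x)
        have := BoundedBy.add (by linarith) (by linarith) b1 b2
        rwa [add_halves] at this
      · intro p _ hp
        refine if_neg fun h => hp ?_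
        rcases pair_eq_pair hxy h with ⟨e1, e2⟩ | ⟨e1, e2⟩ <;>
          simp [Prod.ext_iff, e1, e2]
    · rw [Finset.sum_eq_zero]
      · exact boundedBy_zero
      · intro p _
        refine if_neg fun h => ?_
        by_cases he : p.1 = p.2
        · exact h1 ⟨p.1, by rw [← h, ← he]; simp⟩
        · exact h2 ⟨p.1, p.2, he, h.symm⟩

lemma incid_le {R : ℕ} {J : ℝ} (hJ : 0 < J) {Jc : Site L → Site L → ℝ}
    (hJc : ∀ x y, |Jc x y| ≤ J / 2) (hrange : ∀ x y, Jc x y ≠ 0 → l1 x y ≤ R)
    (A : Finset (Site L)) (x : Site L) :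
    incid A Jc x ≤ J * ((2 * R + 1) ^ 2 : ℕ) := by
  have hb : ∀ a b, |crossJ A Jc a b| ≤ J / 2 := by
    intro a b; simp only [crossJ]; split
    · simpa using (by linarith : (0 : ℝ) ≤ J / 2)
    · exact hJc a b
  have hz : ∀ a b, ¬ l1 a b ≤ R → crossJ A Jc a b = 0 := by
    intro a b h
    simp only [crossJ]; split
    · rfl
    · by_contra h0; exact h (hrange a b h0)
  rw [incid, ← Finset.sum_subset (Finset.subset_univ (ball x R))]
  · refine (Finset.sum_le_card_nsmul _ _ J fun y _ => ?_).trans ?_
    · linarith [hb x y, hb y x]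
    · rw [nsmul_eq_mul, mul_comm]
      exact mul_le_mul_of_nonneg_left (by exact_mod_cast card_ball_le x R) hJ.le
  · intro y _ hy
    simp only [ball, Finset.mem_filter, Finset.mem_univ, true_and] at hy
    rw [hz x y hy, hz y x (by rwa [l1_comm])]; simp

lemma crossWeight_le {R : ℕ} {J : ℝ} (hJ : 0 < J) {Jc : Site L → Site L → ℝ}
    (hJc : ∀ x y, |Jc x y| ≤ J / 2) (hrange : ∀ x y, Jc x y ≠ 0 → l1 x y ≤ R)
    (A : Finset (Site L)) :
    crossWeight A Jc ≤ J * ((4 * R + 1) ^ 4 : ℕ) * (edgeBoundary A).card := by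
  classical
  set T := (edgeBoundary A).biUnion fun e => (ball e.1 (2 * R)) ×ˢ (ball e.1 (2 * R)) with hT
  have hcard : T.card ≤ (edgeBoundary A).card * (4 * R + 1) ^ 4 := by
    refine Finset.card_biUnion_le_card_mul _ _ _ fun e _ => ?_
    rw [Finset.card_product]
    refine (Nat.mul_le_mul (card_ball_le _ _) (card_ball_le _ _)).trans (le_of_eq ?_)
    ring
  rw [crossWeight, ← Finset.sum_filter_of_ne (p := fun p => p ∈ T)]
  · refine (Finset.sum_le_card_nsmul _ _ J fun p _ => ?_).trans ?_
    · exact (hJc _ _).trans (by linarith)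
    · rw [nsmul_eq_mul]
      have h : ((Finset.filter (fun p => p ∈ T) (crossPairs A)).card : ℝ)
          ≤ (((edgeBoundary A).card * (4 * R + 1) ^ 4 : ℕ) : ℝ) := by
        exact_mod_cast le_trans (Finset.card_le_card fun p hp => (Finset.mem_filter.1 hp).2) hcard
      refine (mul_le_mul_of_nonneg_right h hJ.le).trans (le_of_eq ?_)
      push_cast; ring
  · intro p hp hne
    have hl : l1 p.1 p.2 ≤ R := hrange _ _ (fun h => hne (by rw [h, abs_zero]))
    simp only [crossPairs, Finset.mem_filter, Finset.mem_univ, true_and] at hp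
    simp only [hT, Finset.mem_biUnion, Finset.mem_product, ball, Finset.mem_filter,
      Finset.mem_univ, true_and]
    by_cases h1 : p.1 ∈ A
    · obtain ⟨e, he, hle⟩ := exists_boundary_edge A _ p.1 p.2 rfl h1 (fun h => hp (iff_of_true h1 h))
      have := l1_triangle e.1 p.1 p.2
      exact ⟨e, he, by omega, by omega⟩
    · have h2 : p.2 ∈ A := by by_contra h; exact hp (iff_of_false h1 h)
      obtain ⟨e, he, hle⟩ := exists_boundary_edge A _ p.2 p.1 rfl h2 h1
      have := l1_triangle e.1 p.2 p.1
      rw [l1_comm p.2 p.1] at this hle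
      exact ⟨e, he, by omega, by omega⟩

end Vale.P356
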