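import Vale.Agent.P356.Split

/-! Counting of the terms which cross a cut of the square lattice, and the fluctuation bound. -/

namespace Vale.P356

open Matrix Finset

variable {L : ℕ}

lemma l1_comm (x y : Site L) : l1 x y = l1 y x := by simp only [l1]; omega

lemma l1_triangle (x y z : Site L) : l1 x z ≤ l1 x y + l1 y z := by simp only [l1]; omega

lemma l1_self (x : Site L) : l1 x x = 0 := by simp [l1]

lemma l1_step (x y : Site L) {n : ℕ} (h : l1 x y = n + 1) :
    ∃ z, l1 x z = 1 ∧ l1 z y = n := by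
  obtain ⟨⟨a, ha⟩, ⟨b, hb⟩⟩ := x
  obtain ⟨⟨c, hc⟩, ⟨d, hd⟩⟩ := y
  simp only [l1] at h ⊢
  rcases lt_trichotomy a c with h1 | h1 | h1
  · exact ⟨(⟨a + 1, by omega⟩, ⟨b, hb⟩), by simp, by simp; omega⟩
  · rcases lt_trichotomy b d with h2 | h2 | h2
    · exact ⟨(⟨a, ha⟩, ⟨b + 1, by omega⟩), by simp, by simp; omega⟩
    · omega
    · exact ⟨(⟨a, ha⟩, ⟨b - 1, by omega⟩), by simp; omega, by simp; omega⟩
  · exact ⟨(⟨a - 1, by omega⟩, ⟨b, hb⟩), by simp; omega, by simp; omega⟩

lemma exists_boundary_edge (A : Finset (Site L)) :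
    ∀ n (x y : Site L), l1 x y = n → x ∈ A → y ∉ A →
      ∃ e ∈ edgeBoundary A, l1 e.1 x ≤ n := by
  intro n
  induction n with
  | zero =>
    intro x y h hx hy
    have : x = y := by
      obtain ⟨⟨a, _⟩, ⟨b, _⟩⟩ := x
      obtain ⟨⟨c, _⟩, ⟨d, _⟩⟩ := y
      simp only [l1] at h
      simp only [Prod.mk.injEq, Fin.mk.injEq]
      omega
    exact absurd (this ▸ hx) hy
  | succ n ih =>
    intro x y h hx hy
    obtain ⟨z, hz1, hz2⟩ := l1_step x y h
    by_cases hz : z ∈ A
    · obtain ⟨e, he, hle⟩ := ih z y hz2 hz hy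
      refine ⟨e, he, (l1_triangle e.1 z x).trans ?_⟩
      rw [l1_comm z x, hz1]; omega
    · refine ⟨(x, z), by simp [edgeBoundary, hx, hz, hz1], ?_⟩
      simp [l1_self]

/-- The closed ball of radius `r`. -/
def ball (x : Site L) (r : ℕ) : Finset (Site L) := Finset.univ.filter fun y => l1 x y ≤ r

lemma card_ball_le (x : Site L) (r : ℕ) : (ball x r).card ≤ (2 * r + 1) ^ 2 := by
  have h : (ball x r).card ≤ ((Finset.Icc (-(r : ℤ)) r) ×ˢ (Finset.Icc (-(r : ℤ)) r)).card := by
    refine Finset.card_le_card_of_injOn (fun y => ((y.1 : ℤ) - x.1, (y.2 : ℤ) - x.2)) ?_ ?_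
    · intro y hy
      have hy : l1 x y ≤ r := (Finset.mem_filter.1 (Finset.mem_coe.1 hy)).2
      simp only [l1] at hy
      simp only [Finset.coe_product, Set.mem_prod, Finset.mem_coe, Finset.mem_Icc]
      omega
    · intro y _ y' _ h
      simp only [Prod.mk.injEq] at h
      exact Prod.ext (Fin.ext (by omega)) (Fin.ext (by omega))
  refine h.trans (le_of_eq ?_)
  rw [Finset.card_product, Int.card_Icc]
  have : ((r : ℤ) + 1 - -(r : ℤ)).toNat = 2 * r + 1 := by omega
  rw [this, sq]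

/-- The sets which can carry a term crossing the boundary of `A`. -/
noncomputable def crossing (R : ℕ) (A : Finset (Site L)) : Finset (Finset (Site L)) :=
  (edgeBoundary A).biUnion fun e => (ball e.1 (2 * R)).powerset

lemma crossing_card_le (R : ℕ) (A : Finset (Site L)) :
    (crossing R A).card ≤ (edgeBoundary A).card * 2 ^ ((4 * R + 1) ^ 2) := by
  refine Finset.card_biUnion_le_card_mul _ _ _ fun e _ => ?_
  rw [Finset.card_powerset]
  refine Nat.pow_le_pow_right (by norm_num) ((card_ball_le _ _).trans (le_of_eq ?_))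
  ring

lemma card_le_of_mem_crossing {R : ℕ} {A X : Finset (Site L)} (hX : X ∈ crossing R A) :
    X.card ≤ (4 * R + 1) ^ 2 := by
  simp only [crossing, Finset.mem_biUnion, Finset.mem_powerset] at hX
  obtain ⟨e, _, he⟩ := hX
  refine (Finset.card_le_card he).trans ((card_ball_le _ _).trans (le_of_eq ?_))
  ring

lemma mem_crossing {q R : ℕ} {J : ℝ}
    {h : Finset (Site L) → Matrix (Cfg (Site L) q) (Cfg (Site L) q) ℂ}
    (hA : Admissible q R J h) {A X : Finset (Site L)} (h0 : h X ≠ 0)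
    (h1 : ¬ Disjoint X A) (h2 : ¬ X ⊆ A) : X ∈ crossing R A := by
  obtain ⟨-, hdiam⟩ : X.Nonempty ∧ ∀ x ∈ X, ∀ y ∈ X, l1 x y ≤ R := by
    by_contra hc
    exact h0 (hA.eq_zero X hc)
  obtain ⟨x, hxX, hxA⟩ := Finset.not_disjoint_iff.1 h1
  obtain ⟨y, hyX, hyA⟩ := Finset.not_subset.1 h2
  obtain ⟨e, he, hle⟩ := exists_boundary_edge A _ x y rfl hxA hyA
  simp only [crossing, Finset.mem_biUnion, Finset.mem_powerset]
  refine ⟨e, he, fun w hw => ?_⟩
  simp only [ball, Finset.mem_filter, Finset.mem_univ, true_and]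
  have := l1_triangle e.1 x w
  have := hdiam x hxX y hyX
  have := hdiam x hxX w hw
  omega

/-- The constant in the fluctuation bound. -/
noncomputable def fluctConst (q R : ℕ) (J : ℝ) : ℝ :=
  16 * J * (2 * (q : ℝ) ^ 2) ^ ((4 * R + 1) ^ 2)

lemma gap_mul_gvar_le_boundary {q R : ℕ} {J Δ : ℝ} (hJ : 0 < J) (hq : 1 ≤ q)
    {h : Finset (Site L) → Matrix (Cfg (Site L) q) (Cfg (Site L) q) ℂ}
    (hA : Admissible q R J h) {Ω : Cfg (Site L) q → ℂ} (hgap : HasGap (ham h) Ω Δ)
    (A : Finset (Site L)) {g : In A q → ℝ} (hg : LogLip (cutVec A Ω) g) :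
    Δ * gvar (cutVec A Ω) g ≤ fluctConst q R J * (edgeBoundary A).card := by
  refine (gap_mul_gvar_le_crossing A hJ hA.hermitian hA.supported hA.bounded hgap
    (crossing R A) (fun X => mem_crossing hA) hg).trans ?_
  have hq1 : (1 : ℝ) ≤ q := by exact_mod_cast hq
  refine (Finset.sum_le_card_nsmul _ _ (16 * J * (q : ℝ) ^ (2 * (4 * R + 1) ^ 2)) ?_).trans ?_
  · intro X hX
    exact mul_le_mul_of_nonneg_left
      (pow_le_pow_right₀ hq1 (by have := card_le_of_mem_crossing hX; omega)) (by positivity)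
  · rw [nsmul_eq_mul]
    have hc : ((crossing R A).card : ℝ)
        ≤ (edgeBoundary A).card * (2 : ℝ) ^ ((4 * R + 1) ^ 2) := by
      exact_mod_cast crossing_card_le R A
    refine (mul_le_mul_of_nonneg_right hc (by positivity)).trans (le_of_eq ?_)
    rw [fluctConst, mul_pow, ← pow_mul]
    ring

end Vale.P356
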