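import Mathlib

/-!
Quadratic forms of transverse-field Ising Hamiltonians on a finite set of spins, and the
comparison of two copies in a site-wise rotated basis in which taking absolute values of the
coefficients lowers the energy.
-/

namespace Vale.P356

open Finset

variable {V : Type*} [Fintype V] [DecidableEq V]

/-- The value `±1` of a spin. -/
def zv (b : Fin 2) : ℝ := if b = 0 then 1 else -1

lemma zv_add (a b : Fin 2) : zv (a + b) = zv a * zv b := by
  fin_cases a <;> fin_cases b <;> simp [zv]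

lemma zv_sq (a : Fin 2) : zv a * zv a = 1 := by
  fin_cases a <;> simp [zv]

/-- Coupling energy of a configuration. -/
def bondEn (Jc : V → V → ℝ) (σ : V → Fin 2) : ℝ := ∑ x, ∑ y, Jc x y * (zv (σ x) * zv (σ y))

/-- Flip of the spin at `x`. -/
def flipVec (x : V) : V → Fin 2 := Pi.single x 1

/-- The action of the real Ising Hamiltonian. -/
def hmul (g : V → ℝ) (Jc : V → V → ℝ) (v : (V → Fin 2) → ℝ) (σ : V → Fin 2) : ℝ :=
  -(bondEn Jc σ * v σ) - ∑ x, g x * v (σ + flipVec x)

/-- Squared norm. -/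
def nsq {ι : Type*} [Fintype ι] (v : ι → ℝ) : ℝ := ∑ i, v i * v i

/-- Inner product. -/
def ip {ι : Type*} [Fintype ι] (v w : ι → ℝ) : ℝ := ∑ i, v i * w i

/-- The quadratic form of the Hamiltonian. -/
def qf (g : V → ℝ) (Jc : V → V → ℝ) (v : (V → Fin 2) → ℝ) : ℝ := ip v (hmul g Jc v)

lemma fin2_add_self (b : Fin 2) : b + b = 0 := by fin_cases b <;> rfl

omit [Fintype V] [DecidableEq V] in
lemma add_add_self (σ τ : V → Fin 2) : σ + τ + τ = σ := by
  funext x; simp [add_assoc, fin2_add_self]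

/-- A kernel on the two values of one spin, for each relative value `u`. -/
abbrev Ker := Fin 2 → Fin 2 → Fin 2 → ℝ

/-- Product kernel. -/
def pker (M : Ker) (u s σ : V → Fin 2) : ℝ := ∏ x, M (u x) (s x) (σ x)

/-- Transform of the two-copy coefficients. -/
def fwd (M : Ker) (W : (V → Fin 2) → (V → Fin 2) → ℝ) (u s : V → Fin 2) : ℝ :=
  ∑ σ, pker M u s σ * W u σ

/-- Inverse transform. -/
def bwd (M : Ker) (T : (V → Fin 2) → (V → Fin 2) → ℝ) (u σ : V → Fin 2) : ℝ :=
  ∑ s, pker M u s σ * T u s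

/-- The kernel is orthogonal. -/
def Orth (M : Ker) : Prop :=
  ∀ u a b, (∑ s, M u s a * M u s b = if a = b then 1 else 0) ∧
    (∑ σ, M u a σ * M u b σ = if a = b then 1 else 0)

omit [DecidableEq V] in
lemma prod_ite_eq_fun (a b : V → Fin 2) :
    (∏ x, if a x = b x then (1 : ℝ) else 0) = if a = b then 1 else 0 := by
  by_cases h : a = b
  · simp [h]
  · obtain ⟨x, hx⟩ := Function.ne_iff.1 h
    rw [if_neg h, Finset.prod_eq_zero (Finset.mem_univ x) (if_neg hx)]

lemma pker_col (M : Ker) (hM : Orth M) (u a b : V → Fin 2) :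
    ∑ s, pker M u s a * pker M u s b = if a = b then 1 else 0 := by
  simp only [pker, ← Finset.prod_mul_distrib]
  rw [← Fintype.prod_sum (fun x t => M (u x) t (a x) * M (u x) t (b x))]
  simp only [(hM _ _ _).1]
  exact prod_ite_eq_fun a b

lemma pker_row (M : Ker) (hM : Orth M) (u a b : V → Fin 2) :
    ∑ σ, pker M u a σ * pker M u b σ = if a = b then 1 else 0 := by
  simp only [pker, ← Finset.prod_mul_distrib]
  rw [← Fintype.prod_sum (fun x t => M (u x) (a x) t * M (u x) (b x) t)]
  simp only [(hM _ _ _).2]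
  exact prod_ite_eq_fun a b

lemma bwd_fwd (M : Ker) (hM : Orth M) (W : (V → Fin 2) → (V → Fin 2) → ℝ) :
    bwd M (fwd M W) = W := by
  funext u σ
  simp only [bwd, fwd, Finset.mul_sum, ← mul_assoc]
  rw [Finset.sum_comm]
  simp [← Finset.sum_mul, pker_col M hM]

lemma nsq_bwd (M : Ker) (hM : Orth M) (T : (V → Fin 2) → (V → Fin 2) → ℝ) (u : V → Fin 2) :
    nsq (bwd M T u) = nsq (T u) := by
  simp only [nsq, bwd, Finset.mul_sum, Finset.sum_mul]
  rw [Finset.sum_comm]
  refine Finset.sum_congr rfl fun s _ => ?_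
  rw [Finset.sum_comm, Finset.sum_eq_single s]
  · calc ∑ σ, pker M u s σ * T u s * (pker M u s σ * T u s)
        = (∑ σ, pker M u s σ * pker M u s σ) * (T u s * T u s) := by
          rw [Finset.sum_mul]; exact Finset.sum_congr rfl fun σ _ => by ring
      _ = T u s * T u s := by rw [pker_row M hM, if_pos rfl, one_mul]
  · intro t _ hts
    calc ∑ σ, pker M u t σ * T u t * (pker M u s σ * T u s)
        = (∑ σ, pker M u t σ * pker M u s σ) * (T u t * T u s) := by
          rw [Finset.sum_mul]; exact Finset.sum_congr rfl fun σ _ => by ring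
      _ = 0 := by rw [pker_row M hM, if_neg hts, zero_mul]
  · simp

/-- Matrix element of a site-wise product operator. -/
def elem (M : Ker) (φ : V → Fin 2 → ℝ) (d u u' s s' : V → Fin 2) : ℝ :=
  ∏ x, ∑ b, φ x b * (M (u x) (s x) b * M (u' x) (s' x) (b + d x))

lemma sum_bwd (M : Ker) (φ : V → Fin 2 → ℝ) (T : (V → Fin 2) → (V → Fin 2) → ℝ)
    (d u u' : V → Fin 2) :
    ∑ σ, (∏ x, φ x (σ x)) * (bwd M T u σ * bwd M T u' (σ + d))
      = ∑ s, ∑ s', elem M φ d u u' s s' * (T u s * T u' s') := by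
  have he : ∀ s s', elem M φ d u u' s s'
      = ∑ σ : V → Fin 2, (∏ x, φ x (σ x)) * (pker M u s σ * pker M u' s' (σ + d)) := by
    intro s s'
    simp only [elem, pker, ← Finset.prod_mul_distrib, Pi.add_apply]
    exact Fintype.prod_sum (fun x b => φ x b * (M (u x) (s x) b * M (u' x) (s' x) (b + d x)))
  simp only [he, bwd, Finset.mul_sum, Finset.sum_mul]
  rw [Finset.sum_comm]
  conv_lhs => enter [2, s']; rw [Finset.sum_comm]
  rw [Finset.sum_comm]
  exact Finset.sum_congr rfl fun s _ => Finset.sum_congr rfl fun s' _ =>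
    Finset.sum_congr rfl fun σ _ => by ring

lemma sum_abs_ge (M : Ker) (φ : V → Fin 2 → ℝ) (T : (V → Fin 2) → (V → Fin 2) → ℝ)
    (d u u' : V → Fin 2)
    (h : ∀ s s', 0 ≤ elem M φ d u u' s s' ∨ (u = u' ∧ s = s')) :
    ∑ σ, (∏ x, φ x (σ x)) * (bwd M T u σ * bwd M T u' (σ + d))
      ≤ ∑ σ, (∏ x, φ x (σ x)) * (bwd M (fun a b => |T a b|) u σ
          * bwd M (fun a b => |T a b|) u' (σ + d)) := by
  rw [sum_bwd, sum_bwd]
  refine Finset.sum_le_sum fun s _ => Finset.sum_le_sum fun s' _ => ?_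
  rcases h s s' with hp | ⟨h1, h2⟩
  · exact mul_le_mul_of_nonneg_left (by rw [← abs_mul]; exact le_abs_self _) hp
  · subst h1; subst h2
    rw [abs_mul_abs_self]

lemma fwd_symm (M : Ker) (d pi u u' : V → Fin 2) (chi : V → Fin 2 → ℝ)
    (hd : ∀ x s b, M (u x) s (b + d x) = chi x s * M (u' x) (s + pi x) b)
    (W : (V → Fin 2) → (V → Fin 2) → ℝ) (ε : ℝ) (hW : ∀ σ, W u (σ + d) = ε * W u' σ) (s) :
    fwd M W u s = ε * (∏ x, chi x (s x)) * fwd M W u' (s + pi) := by
  simp only [fwd, Finset.mul_sum]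
  rw [← Equiv.sum_comp (Equiv.addRight d)]
  refine Finset.sum_congr rfl fun σ _ => ?_
  simp only [Equiv.coe_addRight, hW, pker, Pi.add_apply, hd, Finset.prod_mul_distrib]
  ring

lemma bwd_symm (M : Ker) (d pi u u' : V → Fin 2) (chi : V → Fin 2 → ℝ)
    (hd : ∀ x s b, M (u x) s (b + d x) = chi x s * M (u' x) (s + pi x) b)
    (T : (V → Fin 2) → (V → Fin 2) → ℝ) (c : ℝ)
    (hT : ∀ s, (∏ x, chi x (s x)) * T u s = c * T u' (s + pi)) (σ) :
    bwd M T u (σ + d) = c * bwd M T u' σ := by
  simp only [bwd, Finset.mul_sum]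
  conv_rhs => rw [← Equiv.sum_comp (Equiv.addRight pi)]
  refine Finset.sum_congr rfl fun s _ => ?_
  simp only [Equiv.coe_addRight]
  have : pker M u s (σ + d) = (∏ x, chi x (s x)) * pker M u' (s + pi) σ := by
    simp only [pker, Pi.add_apply, hd, Finset.prod_mul_distrib]
  rw [this, mul_right_comm, hT]
  ring

/-- Two-copy quadratic form in relative coordinates. -/
def qf2 (g : V → ℝ) (J J' : V → V → ℝ) (W : (V → Fin 2) → (V → Fin 2) → ℝ) : ℝ :=
  (∑ u, ∑ σ, -((bondEn J σ + bondEn J' (σ + u)) * (W u σ * W u σ)))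
    - ∑ x, g x * ∑ u, ∑ σ, (W u σ * W (u + flipVec x) (σ + flipVec x)
        + W u σ * W (u + flipVec x) σ)

/-- The two-copy vector behind relative coordinates. -/
def pairVec (W : (V → Fin 2) → (V → Fin 2) → ℝ) (σ τ : V → Fin 2) : ℝ := W (σ + τ) σ

lemma sum_relative (F : (V → Fin 2) → (V → Fin 2) → ℝ) :
    ∑ σ, ∑ τ, F σ τ = ∑ u, ∑ σ, F σ (σ + u) := by
  rw [Finset.sum_comm (f := fun u σ => F σ (σ + u))]
  exact Finset.sum_congr rfl fun σ _ => (Equiv.sum_comp (Equiv.addLeft σ) (F σ)).symm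

lemma qf_add_qf (g : V → ℝ) (J J' : V → V → ℝ) (W : (V → Fin 2) → (V → Fin 2) → ℝ) :
    (∑ τ, qf g J fun σ => pairVec W σ τ) + (∑ σ, qf g J' (pairVec W σ)) = qf2 g J J' W := by
  have e : ∀ σ u : V → Fin 2, σ + (σ + u) = u := by
    intro σ u; funext x; simp [← add_assoc, fin2_add_self]
  simp only [qf, ip]
  rw [Finset.sum_comm]
  rw [← Finset.sum_add_distrib]
  simp only [← Finset.sum_add_distrib]
  rw [sum_relative, qf2]
  have : ∀ u σ, pairVec W σ (σ + u) * hmul g J (fun σ' => pairVec W σ' (σ + u)) σ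
      + pairVec W σ (σ + u) * hmul g J' (pairVec W σ) (σ + u)
      = -((bondEn J σ + bondEn J' (σ + u)) * (W u σ * W u σ))
        - ∑ x, g x * (W u σ * W (u + flipVec x) (σ + flipVec x)
            + W u σ * W (u + flipVec x) σ) := by
    intro u σ
    have e1 : ∀ x, σ + flipVec x + (σ + u) = u + flipVec x := by
      intro x
      calc σ + flipVec x + (σ + u) = σ + (σ + u) + flipVec x := by abel
        _ = u + flipVec x := by rw [e]
    have e2 : ∀ x, σ + (σ + u + flipVec x) = u + flipVec x := by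
      intro x
      calc σ + (σ + u + flipVec x) = σ + (σ + u) + flipVec x := by abel
        _ = u + flipVec x := by rw [e]
    simp only [hmul, pairVec, e, e1, e2, mul_sub, Finset.mul_sum]
    have h : ∑ x, g x * (W u σ * W (u + flipVec x) (σ + flipVec x)
          + W u σ * W (u + flipVec x) σ)
        = (∑ x, W u σ * (g x * W (u + flipVec x) (σ + flipVec x)))
          + ∑ x, W u σ * (g x * W (u + flipVec x) σ) := by
      rw [← Finset.sum_add_distrib]
      exact Finset.sum_congr rfl fun x _ => by ring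
    rw [h]
    ring
  simp only [this, Finset.sum_sub_distrib, Finset.mul_sum]
  congr 1
  conv_rhs => rw [Finset.sum_comm]
  exact Finset.sum_congr rfl fun u _ => Finset.sum_comm

lemma nsq_pairVec (W : (V → Fin 2) → (V → Fin 2) → ℝ) :
    ∑ σ, nsq (pairVec W σ) = ∑ u, nsq (W u) := by
  simp only [nsq]
  rw [sum_relative]
  refine Finset.sum_congr rfl fun u _ => Finset.sum_congr rfl fun σ _ => ?_
  have : σ + (σ + u) = u := by funext x; simp [← add_assoc, fin2_add_self]
  simp only [pairVec, this]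

/-- The diagonal factor of one bond. -/
def bondPhi (x y : V) (z : V) (b : Fin 2) : ℝ :=
  (if z = x then zv b else 1) * (if z = y then zv b else 1)

lemma prod_bondPhi (x y : V) (σ : V → Fin 2) :
    ∏ z, bondPhi x y z (σ z) = zv (σ x) * zv (σ y) := by
  simp only [bondPhi, Finset.prod_mul_distrib]
  simp

/-- Master comparison: replacing coefficients in the rotated basis by their absolute values
lowers the two-copy energy. -/
lemma qf2_abs_le (M : Ker) (hM : Orth M) (g : V → ℝ) (hg : ∀ x, 0 ≤ g x) (J J' : V → V → ℝ)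
    (hfield : ∀ (x : V) (u s s' : V → Fin 2),
      0 ≤ elem M (fun _ _ => (1 : ℝ)) (flipVec x) u (u + flipVec x) s s'
        + elem M (fun _ _ => (1 : ℝ)) 0 u (u + flipVec x) s s')
    (hbond : ∀ (x y : V) (u s s' : V → Fin 2), 0 ≤ (J x y + J' x y * (zv (u x) * zv (u y)))
      * elem M (bondPhi x y) 0 u u s s' ∨ s = s')
    (W : (V → Fin 2) → (V → Fin 2) → ℝ) :
    qf2 g J J' (bwd M (fun a b => |fwd M W a b|)) ≤ qf2 g J J' W := by
  conv_rhs => rw [← bwd_fwd M hM W]
  generalize fwd M W = T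
  have hb : ∀ T : (V → Fin 2) → (V → Fin 2) → ℝ, ∀ u,
      ∑ σ, (bondEn J σ + bondEn J' (σ + u)) * (bwd M T u σ * bwd M T u σ)
        = ∑ x, ∑ y, ∑ s, ∑ s', (J x y + J' x y * (zv (u x) * zv (u y)))
            * elem M (bondPhi x y) 0 u u s s' * (T u s * T u s') := by
    intro T u
    have h1 : ∀ σ : V → Fin 2, bondEn J σ + bondEn J' (σ + u)
        = ∑ x, ∑ y, (J x y + J' x y * (zv (u x) * zv (u y))) * (zv (σ x) * zv (σ y)) := by
      intro σ
      simp only [bondEn, ← Finset.sum_add_distrib, Pi.add_apply, zv_add]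
      exact Finset.sum_congr rfl fun x _ => Finset.sum_congr rfl fun y _ => by ring
    simp only [h1, Finset.sum_mul]
    rw [Finset.sum_comm]
    refine Finset.sum_congr rfl fun x _ => ?_
    rw [Finset.sum_comm]
    refine Finset.sum_congr rfl fun y _ => ?_
    have h2 := sum_bwd M (bondPhi x y) T 0 u u
    simp only [prod_bondPhi, add_zero] at h2
    calc _ = (J x y + J' x y * (zv (u x) * zv (u y))) *
          ∑ σ, zv (σ x) * zv (σ y) * (bwd M T u σ * bwd M T u σ) := by
          rw [Finset.mul_sum]; exact Finset.sum_congr rfl fun σ _ => by ring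
      _ = _ := by rw [h2]; simp only [Finset.mul_sum, mul_assoc]
  have hf : ∀ T : (V → Fin 2) → (V → Fin 2) → ℝ, ∀ x u,
      ∑ σ, (bwd M T u σ * bwd M T (u + flipVec x) (σ + flipVec x)
          + bwd M T u σ * bwd M T (u + flipVec x) σ)
        = ∑ s, ∑ s', (elem M (fun _ _ => (1 : ℝ)) (flipVec x) u (u + flipVec x) s s'
            + elem M (fun _ _ => (1 : ℝ)) 0 u (u + flipVec x) s s')
              * (T u s * T (u + flipVec x) s') := by
    intro T x u
    have h1 := sum_bwd M (fun _ _ => (1 : ℝ)) T (flipVec x) u (u + flipVec x)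
    have h2 := sum_bwd M (fun _ _ => (1 : ℝ)) T 0 u (u + flipVec x)
    simp only [Finset.prod_const_one, one_mul, add_zero] at h1 h2
    simp only [Finset.sum_add_distrib, h1, h2, add_mul]
  simp only [qf2, Finset.sum_neg_distrib, hb, hf]
  refine sub_le_sub (neg_le_neg ?_) ?_
  · refine Finset.sum_le_sum fun u _ => Finset.sum_le_sum fun x _ => Finset.sum_le_sum fun y _ =>
      Finset.sum_le_sum fun s _ => Finset.sum_le_sum fun s' _ => ?_
    rcases hbond x y u s s' with hp | rfl
    · exact mul_le_mul_of_nonneg_left (by rw [← abs_mul]; exact le_abs_self _) hp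
    · rw [abs_mul_abs_self]
  · refine Finset.sum_le_sum fun x _ => mul_le_mul_of_nonneg_left ?_ (hg x)
    exact Finset.sum_le_sum fun u _ => Finset.sum_le_sum fun s _ => Finset.sum_le_sum fun s' _ =>
      mul_le_mul_of_nonneg_left (by rw [← abs_mul]; exact le_abs_self _) (hfield x u s s')

end Vale.P356
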