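import Vale.Agent.P356.Defs
import Vale.Agent.P356.Bipartite

/-! Local terms seen across a cut `A` against the rest. -/

namespace Vale.P356

open Matrix Finset

section embed

variable {α β γ δ : Type*} [Fintype α] [Fintype β] [Fintype γ] [Fintype δ]

lemma BoundedBy.submatrix {J : ℝ} {K : Matrix α β ℂ} (hK : BoundedBy J K) {f : γ → α}
    {g : δ → β} (hf : Function.Injective f) (hg : Function.Injective g) :
    BoundedBy J (K.submatrix f g) := by
  classical
  intro v
  set w : β → ℂ := Function.extend g v 0 with hw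
  have hwg : ∀ d, w (g d) = v d := fun d => hg.extend_apply v 0 d
  have hw0 : ∀ b, b ∉ Finset.univ.image g → w b = 0 := by
    intro b hb
    rw [hw, Function.extend_apply' _ _ _ (by simpa using hb)]; rfl
  have hsum : ∀ F : β → ℂ, ∑ b, F b * w b = ∑ d, F (g d) * v d := by
    intro F
    rw [← Finset.sum_subset (Finset.subset_univ (Finset.univ.image g))
      (fun b _ hb => by rw [hw0 b hb, mul_zero]), Finset.sum_image hg.injOn]
    exact Finset.sum_congr rfl fun d _ => by rw [hwg]
  have h1 : ∀ c, (K.submatrix f g *ᵥ v) c = (K *ᵥ w) (f c) := fun c => (hsum _).symm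
  have h2 : sqn w = sqn v := by
    have h := hsum (fun b => starRingEnd ℂ (w b))
    simp only [hwg, ← Complex.normSq_eq_conj_mul_self] at h
    exact_mod_cast h
  calc sqn (K.submatrix f g *ᵥ v)
      = ∑ a ∈ Finset.univ.image f, Complex.normSq ((K *ᵥ w) a) := by
        rw [Finset.sum_image hf.injOn]; simp [sqn, h1]
    _ ≤ sqn (K *ᵥ w) := Finset.sum_le_sum_of_subset_of_nonneg (Finset.subset_univ _)
        fun _ _ _ => Complex.normSq_nonneg _
    _ ≤ J ^ 2 * sqn w := hK w
    _ = _ := by rw [h2]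

end embed

variable {V : Type*} [Fintype V] [DecidableEq V] {q : ℕ}

/-- Configurations inside `A`. -/
abbrev In (A : Finset V) (q : ℕ) := {x // x ∈ A} → Fin q

/-- Configurations outside `A`. -/
abbrev Out (A : Finset V) (q : ℕ) := {x // x ∉ A} → Fin q

/-- Splitting a configuration along `A`. -/
def cut (A : Finset V) : In A q × Out A q ≃ Cfg V q where
  toFun p := glue A p.1 p.2
  invFun σ := (fun x => σ x, fun x => σ x)
  left_inv p := by
    refine Prod.ext ?_ ?_ <;> funext x <;> simp [glue, x.2]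
  right_inv σ := by funext x; simp [glue]

omit [Fintype V] in
lemma glue_in (A : Finset V) (a : In A q) (c : Out A q) (x : {x // x ∈ A}) :
    glue A a c x = a x := by simp [glue, x.2]

omit [Fintype V] in
lemma glue_out (A : Finset V) (a : In A q) (c : Out A q) (x : {x // x ∉ A}) :
    glue A a c x = c x := by simp [glue, x.2]

/-- A vector seen across the cut. -/
noncomputable def cutVec (A : Finset V) (v : Cfg V q → ℂ) : In A q × Out A q → ℂ :=
  fun p => v (cut A p)

/-- An operator seen across the cut. -/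
def cutMat (A : Finset V) (K : Matrix (Cfg V q) (Cfg V q) ℂ) :
    Matrix (In A q × Out A q) (In A q × Out A q) ℂ :=
  K.submatrix (cut A) (cut A)

lemma schmidt_eq_lam (A : Finset V) (Ω : Cfg V q → ℂ) :
    schmidt A Ω = lam (cutVec A Ω) := rfl

lemma sqn_cutVec (A : Finset V) (v : Cfg V q → ℂ) : sqn (cutVec A v) = sqn v :=
  Equiv.sum_comp (cut A) (fun σ => Complex.normSq (v σ))

lemma pair_cutVec (A : Finset V) (v w : Cfg V q → ℂ) :
    pair (cutVec A v) (cutVec A w) = pair v w :=
  Equiv.sum_comp (cut A) (fun σ => starRingEnd ℂ (v σ) * w σ)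

lemma cutMat_mulVec (A : Finset V) (K : Matrix (Cfg V q) (Cfg V q) ℂ) (v : Cfg V q → ℂ) :
    cutMat A K *ᵥ cutVec A v = cutVec A (K *ᵥ v) := by
  funext p
  exact Equiv.sum_comp (cut A) (fun σ => K (cut A p) σ * v σ)

omit [Fintype V] in
lemma cutVec_surj (A : Finset V) (w : In A q × Out A q → ℂ) :
    ∃ v : Cfg V q → ℂ, cutVec A v = w :=
  ⟨fun σ => w ((cut A).symm σ), by funext p; simp [cutVec]⟩

omit [Fintype V] in
lemma cutMat_isHermitian (A : Finset V) {K : Matrix (Cfg V q) (Cfg V q) ℂ} (hK : K.IsHermitian) :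
    (cutMat A K).IsHermitian := hK.submatrix _

lemma gapAt_cut (A : Finset V) {H : Matrix (Cfg V q) (Cfg V q) ℂ} {Ω : Cfg V q → ℂ} {E Δ : ℝ}
    (hgap : ∀ v, Δ * (sqn v - Complex.normSq (pair Ω v)) ≤ (pair v (H *ᵥ v)).re - E * sqn v) :
    GapAt (cutMat A H) (cutVec A Ω) E Δ := by
  intro w
  obtain ⟨v, rfl⟩ := cutVec_surj A w
  rw [cutMat_mulVec, sqn_cutVec, pair_cutVec, pair_cutVec]
  exact hgap v

/-- The sites of `A` which lie in `X`. -/
abbrev Common (A X : Finset V) := {x : {x // x ∈ A} // (x : V) ∈ X}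

/-- Overwrite a configuration inside `A` on the sites of `X`. -/
def ins (A X : Finset V) (k : In A q) (s : Common A X → Fin q) : In A q :=
  fun x => if hx : (x : V) ∈ X then s ⟨x, hx⟩ else k x

/-- The matrix unit on the sites of `A ∩ X`. -/
def munit (A X : Finset V) (s t : Common A X → Fin q) : Matrix (In A q) (In A q) ℂ :=
  fun k k' => if (fun p : Common A X => k p.1) = s ∧ k' = ins A X k t then 1 else 0

/-- The matching factor outside `A`. -/
def restY (A X : Finset V) (K : Matrix (Cfg V q) (Cfg V q) ℂ) (k₀ : In A q)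
    (s t : Common A X → Fin q) : Matrix (Out A q) (Out A q) ℂ :=
  K.submatrix (fun c => glue A (ins A X k₀ s) c) (fun c => glue A (ins A X k₀ t) c)

lemma munit_boundedBy (A X : Finset V) (s t : Common A X → Fin q) :
    BoundedBy 1 (munit A X s t) := by
  classical
  intro v
  set S := Finset.univ.filter (fun k : In A q => (fun p : Common A X => k p.1) = s) with hS
  have e : ∀ k, (munit A X s t *ᵥ v) k = if k ∈ S then v (ins A X k t) else 0 := by
    intro k
    by_cases hk : (fun p : Common A X => k p.1) = s <;>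
      simp [munit, Matrix.mulVec, dotProduct, hS, hk, ite_mul]
  have hinj : Set.InjOn (fun k => ins A X k t) (S : Set (In A q)) := by
    intro k hk k' hk' h
    simp only [hS, Finset.coe_filter, Finset.mem_univ, true_and, Set.mem_ofPred_eq] at hk hk'
    funext x
    by_cases hx : (x : V) ∈ X
    · exact (congrFun hk ⟨x, hx⟩).trans (congrFun hk' ⟨x, hx⟩).symm
    · simpa [ins, hx] using congrFun h x
  calc sqn (munit A X s t *ᵥ v)
      = ∑ k ∈ S, Complex.normSq (v (ins A X k t)) := by
        simp only [sqn, e, apply_ite Complex.normSq, map_zero]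
        rw [Finset.sum_ite_mem, Finset.univ_inter]
    _ = ∑ k ∈ S.image (fun k => ins A X k t), Complex.normSq (v k) :=
        (Finset.sum_image (f := fun k => Complex.normSq (v k)) hinj).symm
    _ ≤ sqn v := Finset.sum_le_sum_of_subset_of_nonneg (Finset.subset_univ _)
        fun _ _ _ => Complex.normSq_nonneg _
    _ = 1 ^ 2 * sqn v := by ring

lemma restY_boundedBy (A X : Finset V) {K : Matrix (Cfg V q) (Cfg V q) ℂ} {J : ℝ}
    (hK : BoundedBy J K) (k₀ : In A q) (s t : Common A X → Fin q) :
    BoundedBy J (restY A X K k₀ s t) := by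
  refine hK.submatrix ?_ ?_ <;> intro c c' h <;> funext x <;>
    simpa [glue, x.2] using congrFun h x

lemma cutMat_decomp (A X : Finset V) {K : Matrix (Cfg V q) (Cfg V q) ℂ} (hK : SupportedOn X K)
    (k₀ : In A q) :
    cutMat A K = ∑ st : (Common A X → Fin q) × (Common A X → Fin q),
      tens (munit A X st.1 st.2) (restY A X K k₀ st.1 st.2) := by
  classical
  funext p p'
  obtain ⟨k, c⟩ := p
  obtain ⟨k', c'⟩ := p'
  simp only [Matrix.sum_apply, tens]
  set s₀ : Common A X → Fin q := fun p => k p.1 with hs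
  set t₀ : Common A X → Fin q := fun p => k' p.1 with ht
  have hother : ∀ st : (Common A X → Fin q) × (Common A X → Fin q), st ≠ (s₀, t₀) →
      munit A X st.1 st.2 k k' * restY A X K k₀ st.1 st.2 c c' = 0 := by
    rintro ⟨s, t⟩ hne
    rw [munit, if_neg, zero_mul]
    rintro ⟨h1, h2⟩
    apply hne
    have : t = t₀ := by
      funext p
      simp [ht, h2, ins, p.2]
    exact Prod.ext h1.symm this
  rw [Finset.sum_eq_single (s₀, t₀) (fun b _ hb => hother b hb) (by simp)]
  simp only [cutMat, Matrix.submatrix_apply, munit]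
  by_cases hk : k' = ins A X k t₀
  · rw [if_pos ⟨rfl, hk⟩, one_mul]
    simp only [restY, Matrix.submatrix_apply]
    change K (glue A k c) (glue A k' c') = _
    by_cases hc : ∀ x : {x // x ∉ A}, (x : V) ∉ X → c x = c' x
    · refine hK.2 _ _ _ _ (fun x hx => ?_) (fun x hx => ?_)
      · by_cases hA : x ∈ A
        · simp [glue, hA, ins, hx, hs, ht]
        · simp [glue, hA]
      · by_cases hA : x ∈ A
        · have := congrFun hk ⟨x, hA⟩
          simp [ins, hx] at this
          simp [glue, hA, ins, hx, this]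
        · simp [glue, hA, hc ⟨x, hA⟩ hx]
    · push Not at hc
      obtain ⟨x, hx, hne⟩ := hc
      rw [hK.1 _ _ ⟨x, hx, by simpa [glue, x.2] using hne⟩,
        hK.1 _ _ ⟨x, hx, by simpa [glue, x.2] using hne⟩]
  · rw [if_neg (fun h => hk h.2), zero_mul]
    obtain ⟨x, hx⟩ := Function.ne_iff.1 hk
    by_cases hxX : (x : V) ∈ X
    · exact absurd (by simp [ins, hxX, ht]) hx
    · refine hK.1 _ _ ⟨x, hxX, ?_⟩
      change glue A k c x ≠ glue A k' c' x
      simp [ins, hxX] at hx
      simpa [glue, x.2] using Ne.symm hx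

lemma dform_term_eq_zero (A X : Finset V) {K : Matrix (Cfg V q) (Cfg V q) ℂ}
    (hK : SupportedOn X K) (σ₀ : Cfg V q) (hX : Disjoint X A ∨ X ⊆ A)
    (ψ : In A q × Out A q → ℂ) (g : In A q → ℝ) :
    dform ψ g (cutMat A K) = 0 := by
  classical
  rw [cutMat_decomp A X hK (fun x => σ₀ x), dform_sum]
  refine Finset.sum_eq_zero fun st _ => ?_
  obtain ⟨s, t⟩ := st
  rcases hX with hX | hX
  · have : munit A X s t = 1 := by
      have he : IsEmpty (Common A X) := ⟨fun p => Finset.disjoint_left.1 hX p.2 p.1.2⟩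
      funext k k'
      have h1 : ins A X k t = k := by
        funext x
        have hx : (x : V) ∉ X := fun h => Finset.disjoint_left.1 hX h x.2
        rw [ins, dif_neg hx]
      simp [munit, Matrix.one_apply, h1, eq_comm, Subsingleton.elim (fun p : Common A X => k p.1) s]
    rw [this, dform_tens_one_left]
  · have : restY A X K (fun x => σ₀ x) s t
        = restY A X K (fun x => σ₀ x) s t (fun x => σ₀ x) (fun x => σ₀ x) • 1 := by
      funext c c'
      by_cases hc : c = c'
      · subst hc
        simp only [Matrix.smul_apply, Matrix.one_apply_eq, smul_eq_mul, mul_one, restY,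
          Matrix.submatrix_apply]
        refine hK.2 _ _ _ _ (fun x hx => ?_) (fun x hx => ?_)
        · simp [glue, hX hx]
        · by_cases hA : x ∈ A <;> simp [glue, hA, ins, hx]
      · obtain ⟨x, hx⟩ := Function.ne_iff.1 hc
        simp only [Matrix.smul_apply, Matrix.one_apply_ne hc, smul_zero, restY,
          Matrix.submatrix_apply]
        exact hK.1 _ _ ⟨x, fun h => x.2 (hX h), by simpa [glue, x.2] using hx⟩
    rw [this, dform_tens_scalar_right]

lemma norm_dform_term_le (A X : Finset V) {K : Matrix (Cfg V q) (Cfg V q) ℂ}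
    (hK : SupportedOn X K) {J : ℝ} (hJ : 0 < J) (hb : BoundedBy J K) (hq : 0 < q)
    {ψ : In A q × Out A q → ℂ} (hψ : sqn ψ = 1) {g : In A q → ℝ} (hg : LogLip ψ g) :
    ‖dform ψ g (cutMat A K)‖ ≤ 16 * J * (q : ℝ) ^ (2 * X.card) := by
  set k₀ : In A q := fun _ => ⟨0, hq⟩
  rw [cutMat_decomp A X hK k₀, dform_sum]
  refine (norm_sum_le _ _).trans ?_
  refine (Finset.sum_le_card_nsmul _ _ (16 * J) ?_).trans ?_
  · intro st _
    exact norm_dform_tens_le ψ hψ hg hJ
      (munit_boundedBy A X st.1 st.2) (restY_boundedBy A X hb k₀ st.1 st.2)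
  rw [Finset.card_univ, nsmul_eq_mul]
  simp only [Fintype.card_prod, Fintype.card_fun, Fintype.card_fin]
  have hc : Fintype.card (Common A X) ≤ X.card := by
    rw [← Fintype.card_coe X]
    refine Fintype.card_le_of_injective (fun p => ⟨(p.1 : V), p.2⟩) ?_
    intro p p' h
    simp only [Subtype.mk.injEq] at h
    exact Subtype.ext (Subtype.ext h)
  have hq1 : (1 : ℝ) ≤ q := by exact_mod_cast hq
  push_cast
  rw [← pow_add, mul_comm]
  refine mul_le_mul_of_nonneg_left (pow_le_pow_right₀ hq1 (by omega)) (by positivity)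

/-- Fluctuation bound across an arbitrary cut for an arbitrary finite system. -/
lemma gap_mul_gvar_le_crossing (A : Finset V) {J Δ : ℝ} (hJ : 0 < J)
    {h : Finset V → Matrix (Cfg V q) (Cfg V q) ℂ} (hh : ∀ X, (h X).IsHermitian)
    (hs : ∀ X, SupportedOn X (h X)) (hb : ∀ X, BoundedBy J (h X))
    {Ω : Cfg V q → ℂ} (hgap : HasGap (ham h) Ω Δ)
    (S : Finset (Finset V)) (hS : ∀ X, h X ≠ 0 → ¬ Disjoint X A → ¬ X ⊆ A → X ∈ S)
    {g : In A q → ℝ} (hg : LogLip (cutVec A Ω) g) :
    Δ * gvar (cutVec A Ω) g ≤ ∑ X ∈ S, 16 * J * (q : ℝ) ^ (2 * X.card) := by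
  classical
  obtain ⟨hn, E, heig, hgap⟩ := hgap
  have hψ : sqn (cutVec A Ω) = 1 := by rw [sqn_cutVec, hn]
  have hne : ∃ σ : Cfg V q, Ω σ ≠ 0 := by
    by_contra hc
    push Not at hc
    simp [sqn, hc] at hn
  obtain ⟨σ₀, -⟩ := hne
  have hH : (ham h).IsHermitian := by
    unfold Matrix.IsHermitian ham
    rw [conjTranspose_sum]
    exact Finset.sum_congr rfl fun X _ => hh X
  have heig' : cutMat A (ham h) *ᵥ cutVec A Ω = (E : ℂ) • cutVec A Ω := by
    rw [cutMat_mulVec, heig]; rfl
  refine (gap_mul_gvar_le (cutMat_isHermitian A hH) heig' (gapAt_cut A hgap) g).trans ?_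
  have hsum : cutMat A (ham h) = ∑ X : Finset V, cutMat A (h X) := by
    funext p p'; simp [cutMat, ham, Matrix.sum_apply]
  rw [hsum, dform_sum, ← Finset.sum_subset (Finset.subset_univ S) ?_]
  · refine (Complex.re_le_norm _).trans ((norm_sum_le _ _).trans ?_)
    refine Finset.sum_le_sum fun X _ => ?_
    by_cases hV : Nonempty V
    · exact norm_dform_term_le A X (hs X) hJ (hb X) (Fin.pos (σ₀ hV.some)) hψ hg
    · rw [dform_term_eq_zero A X (hs X) σ₀
        (Or.inr fun x _ => absurd ⟨x⟩ hV), norm_zero]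
      positivity
  · intro X _ hX
    by_cases h0 : h X = 0
    · simp [h0, cutMat, dform, pair]
    · exact dform_term_eq_zero A X (hs X) σ₀ (by
        by_contra hc
        push Not at hc
        exact hX (hS X h0 hc.1 hc.2)) _ _

end Vale.P356
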