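import Vale.Agent.P356.Split
import Vale.Agent.P356.Entropy
import Vale.Agent.P356.Bridge

/-! The local terms of the Ising Hamiltonian. -/

namespace Vale.P356

open Matrix Finset

section general

variable {V : Type*} [Fintype V] [DecidableEq V] {q : ℕ}

lemma supportedOn_zero (X : Finset V) : SupportedOn X (0 : Matrix (Cfg V q) (Cfg V q) ℂ) :=
  ⟨fun _ _ _ => rfl, fun _ _ _ _ _ _ => rfl⟩

lemma SupportedOn.add {X : Finset V} {K M : Matrix (Cfg V q) (Cfg V q) ℂ}
    (hK : SupportedOn X K) (hM : SupportedOn X M) : SupportedOn X (K + M) :=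
  ⟨fun σ τ h => by simp [hK.1 σ τ h, hM.1 σ τ h],
    fun σ τ σ' τ' h1 h2 => by simp [hK.2 σ τ σ' τ' h1 h2, hM.2 σ τ σ' τ' h1 h2]⟩

lemma SupportedOn.smul {X : Finset V} {K : Matrix (Cfg V q) (Cfg V q) ℂ}
    (hK : SupportedOn X K) (c : ℂ) : SupportedOn X (c • K) :=
  ⟨fun σ τ h => by simp [hK.1 σ τ h], fun σ τ σ' τ' h1 h2 => by simp [hK.2 σ τ σ' τ' h1 h2]⟩

lemma BoundedBy.add {c d : ℝ} (hc : 0 ≤ c) (hd : 0 ≤ d) {K M : Matrix (Cfg V q) (Cfg V q) ℂ}
    (hK : BoundedBy c K) (hM : BoundedBy d M) : BoundedBy (c + d) (K + M) := by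
  intro v
  rw [Matrix.add_mulVec]
  have h := sqn_add_le (K *ᵥ v) (M *ᵥ v)
  have h1 : Real.sqrt (sqn (K *ᵥ v)) ≤ c * Real.sqrt (sqn v) := by
    rw [← Real.sqrt_sq hc, ← Real.sqrt_mul (sq_nonneg c)]
    exact Real.sqrt_le_sqrt (hK v)
  have h2 : Real.sqrt (sqn (M *ᵥ v)) ≤ d * Real.sqrt (sqn v) := by
    rw [← Real.sqrt_sq hd, ← Real.sqrt_mul (sq_nonneg d)]
    exact Real.sqrt_le_sqrt (hM v)
  have h3 : Real.sqrt (sqn (K *ᵥ v + M *ᵥ v)) ≤ (c + d) * Real.sqrt (sqn v) := by linarith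
  calc sqn (K *ᵥ v + M *ᵥ v) = Real.sqrt (sqn (K *ᵥ v + M *ᵥ v)) ^ 2 :=
        (Real.sq_sqrt (sqn_nonneg _)).symm
    _ ≤ ((c + d) * Real.sqrt (sqn v)) ^ 2 := pow_le_pow_left₀ (Real.sqrt_nonneg _) h3 2
    _ = _ := by rw [mul_pow, Real.sq_sqrt (sqn_nonneg _)]

lemma boundedBy_zero {c : ℝ} : BoundedBy c (0 : Matrix (Cfg V q) (Cfg V q) ℂ) := by
  intro v
  rw [Matrix.zero_mulVec, sqn_eq_zero.2 rfl]
  exact mul_nonneg (sq_nonneg c) (sqn_nonneg v)

lemma BoundedBy.smul {c : ℝ} {K : Matrix (Cfg V q) (Cfg V q) ℂ} (hK : BoundedBy c K) (r : ℝ) :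
    BoundedBy (|r| * c) ((r : ℂ) • K) := by
  intro v
  rw [Matrix.smul_mulVec, sqn_smul, Complex.normSq_ofReal, mul_pow, sq_abs]
  calc r * r * sqn (K *ᵥ v) ≤ r * r * (c ^ 2 * sqn v) :=
        mul_le_mul_of_nonneg_left (hK v) (mul_self_nonneg r)
    _ = _ := by ring

lemma BoundedBy.mono {c d : ℝ} (hc : 0 ≤ c) (hcd : c ≤ d) {K : Matrix (Cfg V q) (Cfg V q) ℂ}
    (hK : BoundedBy c K) : BoundedBy d K :=
  fun v => (hK v).trans (mul_le_mul_of_nonneg_right (pow_le_pow_left₀ hc hcd 2) (sqn_nonneg v))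

end general

variable {V : Type*} [Fintype V] [DecidableEq V]

lemma pauliX_supported (x : V) : SupportedOn {x} (pauliX x) := by
  refine ⟨fun σ τ ⟨z, hz, hne⟩ => ?_, fun σ τ σ' τ' hin hout => ?_⟩
  · rw [Finset.mem_singleton] at hz
    refine if_neg fun h => hne ?_
    rw [h]; simp [hz]
  · have hx := hin x (Finset.mem_singleton_self x)
    have key : τ = σ + Pi.single x 1 ↔ τ' = σ' + Pi.single x 1 := by
      constructor <;> intro h <;> funext z <;> by_cases hz : z = x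
      · subst hz; have := congrFun h z; simp [← hx.1, ← hx.2] at *; exact this
      · have := (hout z (by simpa using hz)).2; simp [hz, this]
      · subst hz; have := congrFun h z; simp [hx.1, hx.2] at *; exact this
      · have := (hout z (by simpa using hz)).1; simp [hz, this]
    simp only [pauliX, key]

lemma pauliX_boundedBy (x : V) : BoundedBy 1 (pauliX x) := by
  intro v
  have : ∀ σ, (pauliX x *ᵥ v) σ = v (σ + Pi.single x 1) := by
    intro σ; simp [pauliX, Matrix.mulVec, dotProduct]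
  rw [one_pow, one_mul]
  simp only [sqn, this]
  exact le_of_eq (Equiv.sum_comp (Equiv.addRight (Pi.single x 1))
    fun σ => Complex.normSq (v σ))

lemma pauliX_isHermitian (x : V) : (pauliX x).IsHermitian := by
  ext σ τ
  simp only [conjTranspose_apply, pauliX, RCLike.star_def, apply_ite (starRingEnd ℂ), map_one,
    map_zero]
  have : σ = τ + Pi.single x 1 ↔ τ = σ + Pi.single x 1 := by
    constructor <;> intro h <;> rw [h, add_add_self]
  simp only [this]

lemma pauliZZ_eq (x y : V) : pauliZ x * pauliZ y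
    = Matrix.diagonal fun σ => ((zv (σ x) * zv (σ y) : ℝ) : ℂ) := by
  rw [pauliZ, pauliZ, Matrix.diagonal_mul_diagonal]
  congr 1
  funext σ
  simp only [zv]
  split <;> split <;> simp

lemma pauliZZ_supported (x y : V) : SupportedOn {x, y} (pauliZ x * pauliZ y) := by
  rw [pauliZZ_eq]
  refine ⟨fun σ τ ⟨z, _, hne⟩ => ?_, fun σ τ σ' τ' hin hout => ?_⟩
  · rw [Matrix.diagonal_apply_ne]; exact fun h => hne (congrFun h z)
  · by_cases h : σ = τ
    · have h' : σ' = τ' := by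
        funext z
        by_cases hz : z ∈ ({x, y} : Finset V)
        · rw [← (hin z hz).1, ← (hin z hz).2, h]
        · exact (hout z hz).2
      subst h; subst h'
      simp only [Matrix.diagonal_apply_eq]
      rw [(hin x (by simp)).1, (hin y (by simp)).1]
    · have h' : σ' ≠ τ' := by
        intro h'; apply h; funext z
        by_cases hz : z ∈ ({x, y} : Finset V)
        · rw [(hin z hz).1, (hin z hz).2, h']
        · exact (hout z hz).1
      rw [Matrix.diagonal_apply_ne _ h, Matrix.diagonal_apply_ne _ h']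

lemma pauliZZ_boundedBy (x y : V) : BoundedBy 1 (pauliZ x * pauliZ y) := by
  intro v
  rw [pauliZZ_eq, one_pow, one_mul]
  refine le_of_eq (Finset.sum_congr rfl fun σ _ => ?_)
  rw [Matrix.mulVec_diagonal, Complex.normSq_mul, Complex.normSq_ofReal]
  rw [mul_mul_mul_comm, zv_sq, zv_sq, one_mul, one_mul]

lemma pauliZZ_isHermitian (x y : V) : (pauliZ x * pauliZ y).IsHermitian := by
  rw [pauliZZ_eq]
  exact Matrix.isHermitian_diagonal_of_self_adjoint _
    (by ext σ; simp [Complex.conj_ofReal])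

lemma isingH_isHermitian (g : V → ℝ) (Jc : V → V → ℝ) : (isingH g Jc).IsHermitian := by
  unfold Matrix.IsHermitian isingH
  simp only [conjTranspose_sub, conjTranspose_neg, conjTranspose_sum, conjTranspose_smul,
    (pauliX_isHermitian _).eq, (pauliZZ_isHermitian _ _).eq, RCLike.star_def, Complex.conj_ofReal]

lemma isingH_eq_sum (g : V → ℝ) (Jc : V → V → ℝ) : isingH g Jc
    = (∑ x, ((-g x : ℝ) : ℂ) • pauliX x)
      + ∑ p : V × V, ((-Jc p.1 p.2 : ℝ) : ℂ) • (pauliZ p.1 * pauliZ p.2) := by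
  rw [isingH, Fintype.sum_prod_type]
  simp only [Complex.ofReal_neg, neg_smul, Finset.sum_neg_distrib]
  abel

/-- The ordered pairs which cross the cut. -/
def crossPairs (A : Finset V) : Finset (V × V) :=
  Finset.univ.filter fun p => ¬(p.1 ∈ A ↔ p.2 ∈ A)

/-- Total coupling across the cut. -/
def crossWeight (A : Finset V) (Jc : V → V → ℝ) : ℝ := ∑ p ∈ crossPairs A, |Jc p.1 p.2|

/-- The crossing couplings. -/
def crossJ (A : Finset V) (Jc : V → V → ℝ) : V → V → ℝ :=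
  fun x y => if (x ∈ A ↔ y ∈ A) then 0 else Jc x y

lemma dform_isingH (A : Finset V) (g : V → ℝ) (Jc : V → V → ℝ)
    (ψ : In A 2 × Out A 2 → ℂ) (f : In A 2 → ℝ) :
    dform ψ f (cutMat A (isingH g Jc))
      = ∑ p ∈ crossPairs A, dform ψ f (cutMat A (((-Jc p.1 p.2 : ℝ) : ℂ) • (pauliZ p.1 * pauliZ p.2))) := by
  have hcut : ∀ K M : Matrix (Cfg V 2) (Cfg V 2) ℂ,
      dform ψ f (cutMat A (K + M)) = dform ψ f (cutMat A K) + dform ψ f (cutMat A M) := by
    intro K M
    have : cutMat A (K + M) = ∑ b : Bool, cutMat A (if b then K else M) := by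
      simp [cutMat, Matrix.submatrix_add]
    rw [this, dform_sum]; simp
  have hsum : ∀ {τ : Type _} (s : Finset τ) (K : τ → Matrix (Cfg V 2) (Cfg V 2) ℂ),
      dform ψ f (cutMat A (∑ t ∈ s, K t)) = ∑ t ∈ s, dform ψ f (cutMat A (K t)) := by
    intro τ s K
    have : cutMat A (∑ t ∈ s, K t) = ∑ t ∈ s, cutMat A (K t) := by
      funext p p'; simp [cutMat, Matrix.sum_apply]
    rw [this, dform_sum]
  rw [isingH_eq_sum, hcut, hsum, hsum]
  have h1 : ∀ x, dform ψ f (cutMat A (((-g x : ℝ) : ℂ) • pauliX x)) = 0 := by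
    intro x
    refine dform_term_eq_zero A {x} ((pauliX_supported x).smul _) 0 ?_ ψ f
    by_cases hx : x ∈ A
    · exact Or.inr (by simpa using hx)
    · exact Or.inl (by simpa using hx)
  rw [Finset.sum_eq_zero (fun x _ => h1 x), zero_add,
    ← Finset.sum_subset (Finset.subset_univ (crossPairs A))]
  intro p _ hp
  simp only [crossPairs, Finset.mem_filter, Finset.mem_univ, true_and, not_not] at hp
  refine dform_term_eq_zero A {p.1, p.2} ((pauliZZ_supported _ _).smul _) 0 ?_ ψ f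
  by_cases hx : p.1 ∈ A
  · exact Or.inr (by simp [Finset.insert_subset_iff, hx, hp.1 hx])
  · exact Or.inl (by simp [hx, mt hp.2 hx])

lemma norm_dform_bond_le (A : Finset V) (x y : V) (c : ℝ) {ψ : In A 2 × Out A 2 → ℂ}
    (hψ : sqn ψ = 1) {f : In A 2 → ℝ} (hf : LogLip ψ f) :
    ‖dform ψ f (cutMat A ((c : ℂ) • (pauliZ x * pauliZ y)))‖ ≤ 256 * |c| := by
  rcases eq_or_ne c 0 with rfl | hc
  · simp [cutMat, dform, pair]
  · have hb : BoundedBy |c| ((c : ℂ) • (pauliZ x * pauliZ y)) := by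
      simpa using (pauliZZ_boundedBy x y).smul c
    refine (norm_dform_term_le A {x, y} ((pauliZZ_supported x y).smul _) (abs_pos.2 hc) hb
      (by norm_num) hψ hf).trans ?_
    have h2 : ({x, y} : Finset V).card ≤ 2 := Finset.card_le_two
    have : ((2 : ℕ) : ℝ) ^ (2 * ({x, y} : Finset V).card) ≤ 16 := by
      calc ((2 : ℕ) : ℝ) ^ (2 * ({x, y} : Finset V).card) ≤ ((2 : ℕ) : ℝ) ^ 4 :=
            pow_le_pow_right₀ (by norm_num) (by omega)
        _ = 16 := by norm_num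
    calc 16 * |c| * ((2 : ℕ) : ℝ) ^ (2 * ({x, y} : Finset V).card) ≤ 16 * |c| * 16 :=
          mul_le_mul_of_nonneg_left this (by positivity)
      _ = _ := by ring

lemma gap_mul_gvar_ising (A : Finset V) {g : V → ℝ} {Jc : V → V → ℝ} {Ω : Cfg V 2 → ℂ} {Δ : ℝ}
    (hgap : HasGap (isingH g Jc) Ω Δ) {f : In A 2 → ℝ} (hf : LogLip (cutVec A Ω) f) :
    Δ * gvar (cutVec A Ω) f ≤ 256 * crossWeight A Jc := by
  obtain ⟨hn, E, heig, hgap⟩ := hgap
  have hψ : sqn (cutVec A Ω) = 1 := by rw [sqn_cutVec, hn]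
  have heig' : cutMat A (isingH g Jc) *ᵥ cutVec A Ω = (E : ℂ) • cutVec A Ω := by
    rw [cutMat_mulVec, heig]; rfl
  refine (gap_mul_gvar_le (cutMat_isHermitian A (isingH_isHermitian g Jc)) heig'
    (gapAt_cut A hgap) f).trans ?_
  rw [dform_isingH, crossWeight, Finset.mul_sum]
  refine (Complex.re_le_norm _).trans ((norm_sum_le _ _).trans (Finset.sum_le_sum fun p _ => ?_))
  simpa using norm_dform_bond_le A p.1 p.2 (-Jc p.1 p.2) hψ hf

lemma bentropy_eq_zero_of_decoupled (A : Finset V) {g : V → ℝ} {Jc : V → V → ℝ}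
    (h0 : ∀ x y, ¬(x ∈ A ↔ y ∈ A) → Jc x y = 0) {Ω : Cfg V 2 → ℂ} {Δ : ℝ} (hΔ : 0 < Δ)
    (hgap : HasGap (isingH g Jc) Ω Δ) : bentropy (cutVec A Ω) = 0 := by
  obtain ⟨hn, E, heig, hgap⟩ := hgap
  have heig' : cutMat A (isingH g Jc) *ᵥ cutVec A Ω = (E : ℂ) • cutVec A Ω := by
    rw [cutMat_mulVec, heig]; rfl
  refine Finset.sum_eq_zero fun i _ => ?_
  have h := gap_mul_gvar_le (cutMat_isHermitian A (isingH_isHermitian g Jc)) heig'
    (gapAt_cut A hgap) (fun j => if j = i then 1 else 0)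
  rw [dform_isingH, Finset.sum_eq_zero, Complex.zero_re] at h
  · simp [gvar] at h
    have h' : lam (cutVec A Ω) i - lam (cutVec A Ω) i ^ 2 ≤ 0 := by
      by_contra hh; push Not at hh; nlinarith
    have hle : lam (cutVec A Ω) i ≤ 1 := by
      have := Finset.single_le_sum (f := lam (cutVec A Ω)) (fun j _ => lam_nonneg _ j)
        (Finset.mem_univ i)
      rwa [sum_lam, sqn_cutVec, hn] at this
    have h2 : lam (cutVec A Ω) i * (1 - lam (cutVec A Ω) i) = 0 := by
      have := lam_nonneg (cutVec A Ω) i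
      nlinarith
    rcases mul_eq_zero.1 h2 with h3 | h3
    · simp [h3]
    · rw [show lam (cutVec A Ω) i = 1 by linarith]; simp
  · intro p hp
    simp only [crossPairs, Finset.mem_filter, Finset.mem_univ, true_and] at hp
    simp [h0 _ _ hp, cutMat, dform, pair]

end Vale.P356
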