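import Mathlib

/-! Elementary estimates for finite complex vectors and matrices. -/

namespace Vale.P356

open Matrix Finset

variable {ι κ ν : Type*} [Fintype ι] [Fintype κ] [Fintype ν]

/-- Squared Euclidean norm of a complex vector. -/
noncomputable def sqn (v : ι → ℂ) : ℝ := ∑ i, Complex.normSq (v i)

/-- Euclidean pairing, conjugate linear in the first slot. -/
noncomputable def pair (v w : ι → ℂ) : ℂ := ∑ i, starRingEnd ℂ (v i) * w i

/-- `BoundedBy c M` says that the Euclidean operator norm of `M` is at most `c`. -/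
def BoundedBy (c : ℝ) (M : Matrix ι κ ℂ) : Prop :=
  ∀ v : κ → ℂ, sqn (M *ᵥ v) ≤ c ^ 2 * sqn v

lemma sqn_nonneg (v : ι → ℂ) : 0 ≤ sqn v :=
  Finset.sum_nonneg fun _ _ => Complex.normSq_nonneg _

lemma pair_self (v : ι → ℂ) : pair v v = (sqn v : ℂ) := by
  unfold pair sqn
  push_cast
  exact Finset.sum_congr rfl fun i _ => (Complex.normSq_eq_conj_mul_self).symm

lemma sqn_eq_zero {v : ι → ℂ} : sqn v = 0 ↔ v = 0 := by
  unfold sqn
  rw [Finset.sum_eq_zero_iff_of_nonneg fun i _ => Complex.normSq_nonneg _]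
  constructor
  · intro h
    funext i
    exact Complex.normSq_eq_zero.1 (h i (mem_univ i))
  · intro h i _
    simp [h]

lemma conj_pair (v w : ι → ℂ) : starRingEnd ℂ (pair v w) = pair w v := by
  simp only [pair, map_sum, map_mul, Complex.conj_conj]
  exact Finset.sum_congr rfl fun i _ => mul_comm _ _

lemma pair_add_right (v w u : ι → ℂ) : pair v (w + u) = pair v w + pair v u := by
  simp [pair, mul_add, Finset.sum_add_distrib]

lemma pair_add_left (v w u : ι → ℂ) : pair (v + w) u = pair v u + pair w u := by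
  simp [pair, add_mul, Finset.sum_add_distrib]

lemma pair_sub_right (v w u : ι → ℂ) : pair v (w - u) = pair v w - pair v u := by
  simp [pair, mul_sub, Finset.sum_sub_distrib]

lemma pair_sub_left (v w u : ι → ℂ) : pair (v - w) u = pair v u - pair w u := by
  simp [pair, sub_mul, Finset.sum_sub_distrib]

lemma pair_smul_right (v w : ι → ℂ) (c : ℂ) : pair v (c • w) = c * pair v w := by
  simp [pair, Finset.mul_sum, mul_left_comm]

lemma pair_smul_left (v w : ι → ℂ) (c : ℂ) :
    pair (c • v) w = starRingEnd ℂ c * pair v w := by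
  simp [pair, Finset.mul_sum, mul_assoc]

lemma normSq_pair_le (v w : ι → ℂ) : Complex.normSq (pair v w) ≤ sqn v * sqn w := by
  have h1 : ‖pair v w‖ ≤ ∑ i, ‖v i‖ * ‖w i‖ := by
    refine (norm_sum_le _ _).trans (le_of_eq ?_)
    simp
  have h2 := Finset.sum_mul_sq_le_sq_mul_sq Finset.univ (fun i => ‖v i‖) (fun i => ‖w i‖)
  rw [Complex.normSq_eq_norm_sq]
  calc ‖pair v w‖ ^ 2 ≤ (∑ i, ‖v i‖ * ‖w i‖) ^ 2 := by
        exact pow_le_pow_left₀ (norm_nonneg _) h1 2
    _ ≤ _ := h2
    _ = sqn v * sqn w := by simp [sqn, Complex.normSq_eq_norm_sq]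

lemma norm_pair_le (v w : ι → ℂ) : ‖pair v w‖ ≤ Real.sqrt (sqn v) * Real.sqrt (sqn w) := by
  rw [← Real.sqrt_mul (sqn_nonneg v)]
  refine Real.le_sqrt_of_sq_le ?_
  rw [← Complex.normSq_eq_norm_sq]
  exact normSq_pair_le v w

lemma sqn_smul (c : ℂ) (v : ι → ℂ) : sqn (c • v) = Complex.normSq c * sqn v := by
  simp [sqn, Finset.mul_sum]

lemma sqn_add_le (v w : ι → ℂ) :
    Real.sqrt (sqn (v + w)) ≤ Real.sqrt (sqn v) + Real.sqrt (sqn w) := by
  rw [Real.sqrt_le_iff]
  refine ⟨by positivity, ?_⟩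
  have h : (sqn (v + w) : ℂ) = (sqn v : ℂ) + pair v w + pair w v + (sqn w : ℂ) := by
    rw [← pair_self, ← pair_self, ← pair_self, pair_add_left, pair_add_right, pair_add_right]
    ring
  have hre := congrArg Complex.re h
  simp only [Complex.add_re, Complex.ofReal_re] at hre
  have e : (pair w v).re = (pair v w).re := by rw [← conj_pair v w, Complex.conj_re]
  have hc := (Complex.re_le_norm (pair v w)).trans (norm_pair_le v w)
  rw [hre, e, add_sq, Real.sq_sqrt (sqn_nonneg v), Real.sq_sqrt (sqn_nonneg w)]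
  linarith

lemma pair_mulVec_right (M : Matrix ι κ ℂ) (v : ι → ℂ) (w : κ → ℂ) :
    pair v (M *ᵥ w) = pair (Mᴴ *ᵥ v) w := by
  simp only [pair, Matrix.mulVec, dotProduct, map_sum, map_mul, conjTranspose_apply,
    Finset.mul_sum, Finset.sum_mul]
  rw [Finset.sum_comm]
  refine Finset.sum_congr rfl fun i _ => Finset.sum_congr rfl fun j _ => ?_
  simp [mul_left_comm, mul_comm, mul_assoc]

lemma BoundedBy.mul {c d : ℝ} {M : Matrix ι κ ℂ} {N : Matrix κ ν ℂ}
    (hM : BoundedBy c M) (hN : BoundedBy d N) : BoundedBy (c * d) (M * N) := by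
  intro v
  rw [← Matrix.mulVec_mulVec]
  calc sqn (M *ᵥ (N *ᵥ v)) ≤ c ^ 2 * sqn (N *ᵥ v) := hM _
    _ ≤ c ^ 2 * (d ^ 2 * sqn v) := mul_le_mul_of_nonneg_left (hN v) (sq_nonneg c)
    _ = _ := by ring

lemma BoundedBy.adjoint {c : ℝ} {M : Matrix ι κ ℂ}
    (hM : BoundedBy c M) : BoundedBy c Mᴴ := by
  intro v
  set u := Mᴴ *ᵥ v with hu
  have h1 : pair v (M *ᵥ u) = (sqn u : ℂ) := by rw [pair_mulVec_right, ← hu, pair_self]
  have h2 := normSq_pair_le v (M *ᵥ u)
  rw [h1, Complex.normSq_ofReal] at h2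
  have h3 : sqn u * sqn u ≤ (c ^ 2 * sqn v) * sqn u := by
    calc sqn u * sqn u ≤ sqn v * sqn (M *ᵥ u) := h2
      _ ≤ sqn v * (c ^ 2 * sqn u) := mul_le_mul_of_nonneg_left (hM u) (sqn_nonneg v)
      _ = _ := by ring
  rcases (sqn_nonneg u).eq_or_lt with h | h
  · rw [← h]; exact mul_nonneg (sq_nonneg c) (sqn_nonneg v)
  · exact le_of_mul_le_mul_right h3 h

lemma BoundedBy.col_le [DecidableEq κ] {c : ℝ} {M : Matrix ι κ ℂ} (hM : BoundedBy c M) (j : κ) :
    ∑ i, Complex.normSq (M i j) ≤ c ^ 2 := by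
  have h := hM (Pi.single j 1)
  simpa [sqn, Matrix.mulVec_single, Pi.single_apply, apply_ite Complex.normSq] using h

lemma BoundedBy.row_le [DecidableEq ι] {c : ℝ} {M : Matrix ι κ ℂ} (hM : BoundedBy c M) (i : ι) :
    ∑ j, Complex.normSq (M i j) ≤ c ^ 2 := by
  simpa [conjTranspose_apply] using hM.adjoint.col_le i

lemma boundedBy_of_isometry [DecidableEq κ] {U : Matrix ι κ ℂ} (hU : Uᴴ * U = 1) :
    BoundedBy 1 U := by
  intro v
  have : (sqn (U *ᵥ v) : ℂ) = (sqn v : ℂ) := by
    rw [← pair_self, pair_mulVec_right, Matrix.mulVec_mulVec, hU, Matrix.one_mulVec, pair_self]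
  have h' : sqn (U *ᵥ v) = sqn v := by exact_mod_cast this
  simp [h']

/-- Bessel inequality for an orthogonal family which may contain zero vectors. -/
lemma bessel_le {a : Type*} [Fintype a] [DecidableEq a] (m : a → ι → ℂ) (lam : a → ℝ)
    (horth : ∀ i j, pair (m i) (m j) = if i = j then (lam i : ℂ) else 0) (v : ι → ℂ) :
    ∑ j, Complex.normSq (pair (m j) v) / lam j ≤ sqn v := by
  set s := ∑ j, Complex.normSq (pair (m j) v) / lam j with hs
  set w : ι → ℂ := ∑ j, (pair (m j) v / (lam j : ℂ)) • m j with hw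
  have pair_sum_right : ∀ (u : ι → ℂ) (f : a → ι → ℂ),
      pair u (∑ j, f j) = ∑ j, pair u (f j) := by
    intro u f
    simp only [pair, Finset.sum_apply, Finset.mul_sum]
    exact Finset.sum_comm
  have h1 : pair v w = (s : ℂ) := by
    rw [hw, pair_sum_right, hs]
    push_cast
    refine Finset.sum_congr rfl fun j _ => ?_
    rw [pair_smul_right, ← conj_pair (m j) v, div_mul_eq_mul_div, Complex.mul_conj]
  have hz : ∀ j, lam j = 0 → m j = 0 := by
    intro j hj
    have h := horth j j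
    rw [if_pos rfl, pair_self, hj] at h
    exact sqn_eq_zero.1 (by exact_mod_cast h)
  have h2 : ∀ i, pair (m i) w = pair (m i) v := by
    intro i
    rw [hw, pair_sum_right, Finset.sum_eq_single i]
    · rw [pair_smul_right, horth, if_pos rfl]
      by_cases hl : lam i = 0
      · simp [hz i hl, hl, pair]
      · exact div_mul_cancel₀ _ (by exact_mod_cast hl)
    · intro j _ hji
      rw [pair_smul_right, horth, if_neg (Ne.symm hji), mul_zero]
    · simp
  have h3 : pair w w = (s : ℂ) := by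
    conv_lhs => enter [2]; rw [hw]
    rw [pair_sum_right, hs]
    push_cast
    refine Finset.sum_congr rfl fun j _ => ?_
    rw [pair_smul_right, ← conj_pair (m j) w, h2, div_mul_eq_mul_div, Complex.mul_conj]
  have h4 : (sqn (v - w) : ℂ) = (sqn v : ℂ) - (s : ℂ) := by
    rw [← pair_self, pair_sub_left, pair_sub_right, pair_sub_right, ← conj_pair v w, h1, h3,
      Complex.conj_ofReal, pair_self]
    ring
  have h5 : sqn (v - w) = sqn v - s := by exact_mod_cast h4
  linarith [sqn_nonneg (v - w)]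

end Vale.P356
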